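import Vale.Agent.P167.XDL.Enl2

/-!
# P167: a face is added to a lattice polygon along one edge
-/

set_option autoImplicit false

namespace Vale.Agent.P167.H632G

open Vale.Agent.P167.E6 (IsPolygon Encloses dir face)

/-! ### directions and faces -/

theorem dir_inj {r s : Fin 4} (h : dir r = dir s) : r = s := by
  fin_cases r <;> fin_cases s <;> simp [dir] at h ⊢

theorem face_eq {v u : ℤ × ℤ} {t s : Fin 4} (h : face v s = face u t) :
    (v = u ∧ s = t) ∨ (v = u + dir t ∧ s = t + 1) ∨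
      (v = u + dir t + dir (t + 1) ∧ s = t + 2) ∨ (v = u + dir (t + 1) ∧ s = t + 3) := by
  obtain ⟨x, y⟩ := v
  obtain ⟨a, b⟩ := u
  fin_cases t <;> fin_cases s <;>
    simp [face, dir, Prod.ext_iff] at h ⊢ <;> omega

theorem face_a (u : ℤ × ℤ) (t : Fin 4) : face (u + dir t) (t + 1) = face u t := by
  fin_cases t <;> simp [face, dir, Prod.ext_iff]

theorem face_b (u : ℤ × ℤ) (t : Fin 4) :
    face (u + dir t + dir (t + 1)) (t + 2) = face u t := by
  fin_cases t <;> simp [face, dir, Prod.ext_iff]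

theorem face_u' (u : ℤ × ℤ) (t : Fin 4) :
    face (u + dir (t + 1)) t = face (u + dir t + dir (t + 1)) (t + 1) := by
  fin_cases t <;> simp [face, dir, Prod.ext_iff]

theorem face_v (u : ℤ × ℤ) (t : Fin 4) : face (u + dir (t + 1)) (t + 2) = face u (t + 1) := by
  fin_cases t <;> simp [face, dir, Prod.ext_iff]

theorem dir_ne (u : ℤ × ℤ) (t : Fin 4) : u + dir t ≠ u ∧ u + dir t + dir (t + 1) ≠ u ∧
    u + dir t + dir (t + 1) ≠ u + dir t ∧ u + dir t ≠ u + dir (t + 1) ∧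
    u + dir t + dir (t + 1) ≠ u + dir (t + 1) ∧ u + dir (t + 1) ≠ u := by
  obtain ⟨x, y⟩ := u
  fin_cases t <;> simp [dir, Prod.ext_iff]

theorem dir_add2 (u : ℤ × ℤ) (t : Fin 4) : u + dir t + dir (t + 1) + dir (t + 2) = u + dir (t + 1) := by
  fin_cases t <;> simp [dir, Prod.ext_iff]

theorem dir_add3 (u : ℤ × ℤ) (t : Fin 4) : u + dir t + dir (t + 1) + dir (t + 3) = u + dir t := by
  fin_cases t <;> simp [dir, Prod.ext_iff]

/-! ### the polygon with the new face -/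

variable {N : ℕ} {q : ZMod N → ℤ × ℤ} {S : Finset (ℤ × ℤ)}

/-- The vertices of the new polygon. -/
def bv (q : ZMod N → ℤ × ℤ) (i : ℕ) (a b : ℤ × ℤ) (j : ℕ) : ℤ × ℤ :=
  if j ≤ i then q (j : ℕ) else if j = i + 1 then a else if j = i + 2 then b else q ((j - 2 : ℕ))

theorem bv_le {i : ℕ} {a b : ℤ × ℤ} {j : ℕ} (h : j ≤ i) : bv q i a b j = q (j : ℕ) := if_pos h

theorem bv_a {i : ℕ} {a b : ℤ × ℤ} : bv q i a b (i + 1) = a := by
  unfold bv
  rw [if_neg (by omega), if_pos rfl]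

theorem bv_b {i : ℕ} {a b : ℤ × ℤ} : bv q i a b (i + 2) = b := by
  unfold bv
  rw [if_neg (by omega), if_neg (by omega), if_pos rfl]

theorem bv_ge {i : ℕ} {a b : ℤ × ℤ} {j : ℕ} (h : i + 1 ≤ j) : bv q i a b (j + 2) = q (j : ℕ) := by
  unfold bv
  rw [if_neg (by omega), if_neg (by omega), if_neg (by omega)]
  rfl

theorem cast_inj {N m m' : ℕ} (h1 : m < N) (h2 : m' < N) (h : (m : ZMod N) = (m' : ZMod N)) :
    m = m' := by
  rw [ZMod.natCast_eq_natCast_iff', Nat.mod_eq_of_lt h1, Nat.mod_eq_of_lt h2] at h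
  exact h

theorem zcast_val {N : ℕ} (hN : 0 < N) (x : ZMod N) : ∃ m < N, (m : ZMod N) = x := by
  have : NeZero N := ⟨by omega⟩
  exact ⟨x.val, ZMod.val_lt x, ZMod.natCast_zmod_val x⟩

/-- A polygon from a function on the natural numbers. -/
theorem exists_fun {N : ℕ} (hN : 0 < N) {f : ℕ → ℤ × ℤ} (h0 : f N = f 0) :
    ∃ q : ZMod N → ℤ × ℤ, ∀ j ≤ N, q (j : ℕ) = f j := by
  have : NeZero N := ⟨by omega⟩
  refine ⟨fun x => f x.val, fun j hj => ?_⟩
  rcases hj.lt_or_eq with h | rfl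
  · show f ((j : ZMod N).val) = f j
    rw [ZMod.val_natCast, Nat.mod_eq_of_lt h]
  · show f ((j : ZMod j).val) = f j
    rw [ZMod.val_natCast, Nat.mod_self, h0]

/-- Directed edges of a polygon by natural numbers. -/
theorem edge_iff (hN : 0 < N) {v w : ℤ × ℤ} :
    (∃ x, q x = v ∧ q (x + 1) = w) ↔ ∃ m < N, q (m : ℕ) = v ∧ q ((m + 1 : ℕ)) = w := by
  constructor
  · rintro ⟨x, h1, h2⟩
    obtain ⟨m, hm, rfl⟩ := zcast_val hN x
    exact ⟨m, hm, h1, by push_cast; exact h2⟩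
  · rintro ⟨m, -, h1, h2⟩
    exact ⟨(m : ℕ), h1, by push_cast at h2; exact h2⟩

/-- **A face is added.** -/
theorem exists_bump (hq : IsPolygon q) (hE : Encloses q S) {i : ℕ} (hi : i < N) {t : Fin 4}
    (ht : q ((i + 1 : ℕ)) = q (i : ℕ) + dir (t + 1)) (ha : ∀ x, q x ≠ q (i : ℕ) + dir t)
    (hb : ∀ x, q x ≠ q (i : ℕ) + dir t + dir (t + 1)) :
    ∃ q' : ZMod (N + 2) → ℤ × ℤ, IsPolygon q' ∧ Encloses q' (insert (face (q (i : ℕ)) t) S) ∧
      (∀ j : ℕ, j ≤ i → q' (j : ℕ) = q (j : ℕ)) ∧ q' ((i + 1 : ℕ)) = q (i : ℕ) + dir t ∧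
      q' ((i + 2 : ℕ)) = q (i : ℕ) + dir t + dir (t + 1) ∧
      (∀ j : ℕ, i + 1 ≤ j → j ≤ N → q' ((j + 2 : ℕ)) = q (j : ℕ)) ∧
      ∀ x, (∃ y, q' x = q y) ∨ q' x = q (i : ℕ) + dir t ∨
        q' x = q (i : ℕ) + dir t + dir (t + 1) := by
  obtain ⟨u, hu⟩ : ∃ u, u = q (i : ℕ) := ⟨_, rfl⟩
  rw [← hu] at ht ha hb ⊢
  have hN : 2 < N := hq.1
  have hf0 : bv q i (u + dir t) (u + dir t + dir (t + 1)) (N + 2) =
      bv q i (u + dir t) (u + dir t + dir (t + 1)) 0 := by
    rw [bv_ge (by omega), bv_le (by omega), ZMod.natCast_self, Nat.cast_zero]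
  obtain ⟨q', hq'⟩ := exists_fun (by omega : 0 < N + 2) hf0
  have g1 : ∀ j : ℕ, j ≤ i → q' (j : ℕ) = q (j : ℕ) := fun j hj => by
    rw [hq' j (by omega), bv_le hj]
  have g2 : q' ((i + 1 : ℕ)) = u + dir t := by rw [hq' _ (by omega), bv_a]
  have g3 : q' ((i + 2 : ℕ)) = u + dir t + dir (t + 1) := by rw [hq' _ (by omega), bv_b]
  have g4 : ∀ j : ℕ, i + 1 ≤ j → j ≤ N → q' ((j + 2 : ℕ)) = q (j : ℕ) := fun j h1 h2 => by
    rw [hq' _ (by omega), bv_ge h1]
  obtain ⟨d1, d2, d3, d4, d5, d6⟩ := dir_ne u t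
  have hcase : ∀ m, m < N + 2 → (m ≤ i ∧ q' (m : ℕ) = q (m : ℕ)) ∨
      (m = i + 1 ∧ q' (m : ℕ) = u + dir t) ∨ (m = i + 2 ∧ q' (m : ℕ) = u + dir t + dir (t + 1)) ∨
      (∃ j, i + 1 ≤ j ∧ j < N ∧ m = j + 2 ∧ q' (m : ℕ) = q (j : ℕ)) := by
    intro m hm
    by_cases h1 : m ≤ i
    · exact Or.inl ⟨h1, g1 m h1⟩
    by_cases h2 : m = i + 1
    · subst h2; exact Or.inr (Or.inl ⟨rfl, g2⟩)
    by_cases h3 : m = i + 2
    · subst h3; exact Or.inr (Or.inr (Or.inl ⟨rfl, g3⟩))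
    · obtain ⟨j, rfl⟩ : ∃ j, m = j + 2 := ⟨m - 2, by omega⟩
      exact Or.inr (Or.inr (Or.inr ⟨j, by omega, by omega, rfl, g4 j (by omega) (by omega)⟩))
  have hinj : ∀ m m', m < N + 2 → m' < N + 2 → q' (m : ℕ) = q' (m' : ℕ) → m = m' := by
    intro m m' hm hm' h
    rcases hcase m hm with ⟨a1, a2⟩ | ⟨a1, a2⟩ | ⟨a1, a2⟩ | ⟨j, a1, a3, a4, a2⟩ <;>
      rcases hcase m' hm' with ⟨b1, b2⟩ | ⟨b1, b2⟩ | ⟨b1, b2⟩ | ⟨j', b1, b3, b4, b2⟩ <;>
      rw [a2, b2] at h
    · exact cast_inj (by omega) (by omega) (hq.2.1 h)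
    · exact absurd h (ha _)
    · exact absurd h (hb _)
    · have := cast_inj (by omega) (by omega) (hq.2.1 h)
      omega
    · exact absurd h.symm (ha _)
    · omega
    · exact absurd h.symm d3
    · exact absurd h.symm (ha _)
    · exact absurd h.symm (hb _)
    · exact absurd h d3
    · omega
    · exact absurd h.symm (hb _)
    · have := cast_inj (by omega) (by omega) (hq.2.1 h)
      omega
    · exact absurd h (ha _)
    · exact absurd h (hb _)
    · have := cast_inj (by omega) (by omega) (hq.2.1 h)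
      omega
  have hstep : ∀ m, m < N → ∃ r, q ((m + 1 : ℕ)) = q (m : ℕ) + dir r := fun m _ => by
    obtain ⟨r, hr⟩ := hq.2.2 (m : ℕ)
    exact ⟨r, by push_cast; exact hr⟩
  have hpoly : IsPolygon q' := by
    refine ⟨by omega, fun x y hxy => ?_, fun x => ?_⟩
    · obtain ⟨m, hm, rfl⟩ := zcast_val (by omega : 0 < N + 2) x
      obtain ⟨m', hm', rfl⟩ := zcast_val (by omega : 0 < N + 2) y
      rw [hinj m m' hm hm' hxy]
    · obtain ⟨m, hm, rfl⟩ := zcast_val (by omega : 0 < N + 2) x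
      have e : ((m : ℕ) : ZMod (N + 2)) + 1 = ((m + 1 : ℕ) : ZMod (N + 2)) := by push_cast; rfl
      rw [e]
      rcases hcase m hm with ⟨a1, a2⟩ | ⟨a1, a2⟩ | ⟨a1, a2⟩ | ⟨j, a1, a3, a4, a2⟩
      · rcases a1.lt_or_eq with h | h
        · rw [a2, g1 (m + 1) (by omega)]
          exact hstep m (by omega)
        · rw [h] at a2 ⊢
          rw [a2, g2, ← hu]
          exact ⟨t, rfl⟩
      · rw [a2, a1]
        exact ⟨t + 1, g3⟩
      · rw [a2, a1, show i + 2 + 1 = (i + 1) + 2 from rfl, g4 (i + 1) le_rfl (by omega), ht]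
        exact ⟨t + 2, (dir_add2 u t).symm⟩
      · rw [a2, a4, show j + 2 + 1 = (j + 1) + 2 from rfl, g4 (j + 1) (by omega) (by omega)]
        exact hstep j a3
  have g5 : ∀ x, (∃ y, q' x = q y) ∨ q' x = u + dir t ∨ q' x = u + dir t + dir (t + 1) := by
    intro x
    obtain ⟨m, hm, rfl⟩ := zcast_val (by omega : 0 < N + 2) x
    rcases hcase m hm with ⟨a1, a2⟩ | ⟨a1, a2⟩ | ⟨a1, a2⟩ | ⟨j, a1, a3, a4, a2⟩
    · exact Or.inl ⟨_, a2⟩
    · exact Or.inr (Or.inl a2)
    · exact Or.inr (Or.inr a2)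
    · exact Or.inl ⟨_, a2⟩
  refine ⟨q', hpoly, ?_, g1, g2, g3, g4, g5⟩
  -- the edges
  have hEd : ∀ v r, (∃ m < N, q (m : ℕ) = v ∧ q ((m + 1 : ℕ)) = v + dir r) ↔
      face v r ∈ S ∧ face v (r - 1) ∉ S := fun v r => by rw [← hE v r, edge_iff (by omega)]
  have hstart : ∀ v r, face v r ∈ S → face v (r - 1) ∉ S → ∃ x, q x = v := fun v r h1 h2 => by
    obtain ⟨m, -, h3, -⟩ := (hEd v r).2 ⟨h1, h2⟩
    exact ⟨_, h3⟩
  have h0 : face u (t + 1) ∈ S ∧ face u t ∉ S := by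
    have h := (hEd u (t + 1)).1 ⟨i, hi, hu.symm, ht⟩
    rwa [add_sub_cancel_right] at h
  have huniq : ∀ r, face u r ∈ S → face u (r - 1) ∉ S → r = t + 1 := fun r h1 h2 => by
    obtain ⟨m, hm, h3, h4⟩ := (hEd u r).2 ⟨h1, h2⟩
    rw [hu] at h3
    have h5 := cast_inj hm hi (hq.2.1 h3)
    rw [h5, ht] at h4
    exact (dir_inj (add_left_cancel h4)).symm
  have hall : ∀ v, (∀ x, q x ≠ v) → ∀ s, face v s ∉ S → ∀ r, face v r ∉ S := by
    intro v hv s hs r hr
    have key : ∀ r, face v r ∈ S → face v (r - 1) ∈ S := fun r h1 => by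
      by_contra h2
      obtain ⟨x, hx⟩ := hstart v r h1 h2
      exact hv x hx
    have k1 := key r hr
    have k2 := key _ k1
    have k3 := key _ k2
    have h4 : ∀ s r : Fin 4, s = r ∨ s = r - 1 ∨ s = r - 1 - 1 ∨ s = r - 1 - 1 - 1 := by decide
    rcases h4 s r with rfl | rfl | rfl | rfl
    · exact hs hr
    · exact hs k1
    · exact hs k2
    · exact hs k3
  have hA : ∀ r, face (u + dir t) r ∉ S :=
    hall _ ha (t + 1) (by rw [face_a]; exact h0.2)
  have hB : ∀ r, face (u + dir t + dir (t + 1)) r ∉ S :=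
    hall _ hb (t + 2) (by rw [face_b]; exact h0.2)
  intro v r
  rw [edge_iff (by omega)]
  have hL : (∃ m < N + 2, q' (m : ℕ) = v ∧ q' ((m + 1 : ℕ)) = v + dir r) ↔
      ((face v r ∈ S ∧ face v (r - 1) ∉ S) ∧ v ≠ u) ∨ (v = u ∧ r = t) ∨ (v = u + dir t ∧ r = t + 1) ∨
        (v = u + dir t + dir (t + 1) ∧ r = t + 2) := by
    constructor
    · rintro ⟨m, hm, h1, h2⟩
      rcases hcase m hm with ⟨a1, a2⟩ | ⟨a1, a2⟩ | ⟨a1, a2⟩ | ⟨j, a1, a3, a4, a2⟩
      · rcases a1.lt_or_eq with h | h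
        · left
          rw [a2] at h1
          rw [g1 (m + 1) (by omega)] at h2
          refine ⟨(hEd v r).1 ⟨m, by omega, h1, h2⟩, ?_⟩
          rintro rfl
          rw [hu] at h1
          have := cast_inj (by omega) hi (hq.2.1 h1)
          omega
        · right; left
          rw [h] at a2 h1 h2
          rw [a2, ← hu] at h1
          rw [g2, ← h1] at h2
          exact ⟨h1.symm, (dir_inj (add_left_cancel h2)).symm⟩
      · right; right; left
        rw [a1] at a2 h1 h2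
        rw [a2] at h1
        rw [show i + 1 + 1 = i + 2 from rfl, g3, ← h1] at h2
        exact ⟨h1.symm, (dir_inj (add_left_cancel h2)).symm⟩
      · right; right; right
        rw [a1] at a2 h1 h2
        rw [a2] at h1
        rw [show i + 2 + 1 = (i + 1) + 2 from rfl, g4 (i + 1) le_rfl (by omega), ht, ← h1,
          ← dir_add2 u t] at h2
        exact ⟨h1.symm, (dir_inj (add_left_cancel h2)).symm⟩
      · left
        rw [a4] at a2 h1 h2
        rw [a2] at h1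
        rw [show j + 2 + 1 = (j + 1) + 2 from rfl, g4 (j + 1) (by omega) (by omega)] at h2
        refine ⟨(hEd v r).1 ⟨j, a3, h1, h2⟩, ?_⟩
        rintro rfl
        rw [hu] at h1
        have := cast_inj a3 hi (hq.2.1 h1)
        omega
    · rintro (⟨h1, h2⟩ | ⟨rfl, rfl⟩ | ⟨rfl, rfl⟩ | ⟨rfl, rfl⟩)
      · obtain ⟨m, hm, h3, h4⟩ := (hEd v r).2 h1
        have hmi : m ≠ i := by
          rintro rfl
          exact h2 (by rw [hu, h3])
        rcases lt_or_gt_of_ne hmi with h | h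
        · exact ⟨m, by omega, by rw [g1 m (by omega)]; exact h3, by rw [g1 (m + 1) (by omega)]; exact h4⟩
        · exact ⟨m + 2, by omega, by rw [g4 m (by omega) (by omega)]; exact h3,
            by rw [show m + 2 + 1 = (m + 1) + 2 from rfl, g4 (m + 1) (by omega) (by omega)]; exact h4⟩
      · exact ⟨i, by omega, by rw [g1 i le_rfl, hu], g2⟩
      · exact ⟨i + 1, by omega, g2, g3⟩
      · exact ⟨i + 2, by omega, g3, by
          rw [show i + 2 + 1 = (i + 1) + 2 from rfl, g4 (i + 1) le_rfl (by omega), ht, dir_add2]⟩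
  rw [hL]
  simp only [Finset.mem_insert, not_or]
  by_cases G1 : face v r = face u t
  · have hv : v = u ∧ r = t ∨ v = u + dir t ∧ r = t + 1 ∨
        v = u + dir t + dir (t + 1) ∧ r = t + 2 ∨ v = u + dir (t + 1) ∧ r = t + 3 := face_eq G1
    have e1 : ¬ face v (r - 1) = face u t := by
      rw [← G1]
      intro h
      fin_cases r <;> simp [face, Prod.ext_iff] at h
    constructor
    · rintro h
      refine ⟨Or.inl G1, e1, ?_⟩
      rcases h with ⟨⟨h1, -⟩, -⟩ | ⟨rfl, rfl⟩ | ⟨rfl, rfl⟩ | ⟨rfl, rfl⟩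
      · exact absurd (G1 ▸ h1) h0.2
      · -- the other side of the first edge
        intro h
        have h1 := hA (r + 2)
        apply h1
        have e2 : face (v + dir r) (r + 2) = face v (r - 1) := by
          fin_cases r <;> simp [face, dir, Prod.ext_iff, Fin.sub_def]
        rw [e2]; exact h
      · rw [add_sub_cancel_right]; exact hA _
      · exact hB _
    · rintro ⟨-, -, h1⟩
      rcases hv with h | h | h | ⟨rfl, rfl⟩
      · exact Or.inr (Or.inl h)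
      · exact Or.inr (Or.inr (Or.inl h))
      · exact Or.inr (Or.inr (Or.inr h))
      · exfalso
        apply h1
        have e2 : t + 3 - 1 = t + 2 := by
          rw [add_sub_assoc]; rfl
        rw [e2, face_v]
        exact h0.1
  by_cases G2 : face v (r - 1) = face u t
  · constructor
    · intro h
      exfalso
      rcases h with ⟨⟨h1, h2⟩, h3⟩ | ⟨rfl, rfl⟩ | ⟨rfl, rfl⟩ | ⟨rfl, rfl⟩
      · rcases face_eq G2 with ⟨rfl, h⟩ | ⟨rfl, h⟩ | ⟨rfl, h⟩ | ⟨rfl, h⟩
        · exact h3 rfl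
        · exact hA _ h1
        · exact hB _ h1
        · have e3 : r = t := by
            have : r = t + 3 + 1 := by rw [← h, sub_add_cancel]
            rw [this, add_assoc]
            show t + 0 = t
            rw [add_zero]
          rw [e3, face_u'] at h1
          exact hB _ h1
      · exact G1 rfl
      · exact G1 (face_a _ _)
      · exact G1 (face_b _ _)
    · rintro ⟨-, h, -⟩
      exact absurd G2 h
  · constructor
    · rintro (⟨⟨h1, h2⟩, -⟩ | ⟨rfl, rfl⟩ | ⟨rfl, rfl⟩ | ⟨rfl, rfl⟩)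
      · exact ⟨Or.inr h1, G2, h2⟩
      · exact absurd rfl G1
      · exact absurd (face_a _ _) G1
      · exact absurd (face_b _ _) G1
    · rintro ⟨h1 | h1, -, h2⟩
      · exact absurd h1 G1
      · refine Or.inl ⟨⟨h1, h2⟩, ?_⟩
        rintro rfl
        have h3 := huniq r h1 h2
        rw [h3, add_sub_cancel_right] at G2
        exact G2 rfl

end Vale.Agent.P167.H632G
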