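import Vale.Agent.P167.H632.G.Bump

/-!
# P167, general `q`, SAND-GEO [OutN]: the gadget

A lattice polygon is refined by the factor `5` and at most three cells are added inside of the outside face
of the side `i`, next to the middle of this side, such that there is a side in the direction `(1, 0)`
(domain above) near the middle of the side `i`.
-/

set_option autoImplicit false

namespace Vale.Agent.P167.H632G

open Metric Set
open Vale.Agent.P167.E6 (IsPolygon Encloses dir face pt region)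
open Vale.Agent.P167.H825 (enl pdir)
open Vale.Agent.P167.Enl (PN qN face0 face1 face2 face3)

/-! ### rectangles in the region -/

/-- The open rectangle. -/
def Rc (x₀ x₁ y₀ y₁ : ℝ) : Set ℂ := Ioo x₀ x₁ ×ℂ Ioo y₀ y₁

theorem mem_Rc {x₀ x₁ y₀ y₁ : ℝ} {z : ℂ} :
    z ∈ Rc x₀ x₁ y₀ y₁ ↔ (x₀ < z.re ∧ z.re < x₁) ∧ y₀ < z.im ∧ z.im < y₁ := by
  unfold Rc
  rw [Complex.mem_reProdIm, mem_Ioo, mem_Ioo]

theorem isOpen_Rc {x₀ x₁ y₀ y₁ : ℝ} : IsOpen (Rc x₀ x₁ y₀ y₁) := isOpen_Ioo.reProdIm isOpen_Ioo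

theorem pc_Rc {x₀ x₁ y₀ y₁ : ℝ} : IsPreconnected (Rc x₀ x₁ y₀ y₁) :=
  (((convex_Ioo x₀ x₁).linear_preimage Complex.reLm).inter
    ((convex_Ioo y₀ y₁).linear_preimage Complex.imLm)).isPreconnected

theorem mem_closure_Rc {x₀ x₁ y₀ y₁ : ℝ} (hx : x₀ < x₁) (hy : y₀ < y₁) {z : ℂ}
    (h1 : x₀ ≤ z.re) (h2 : z.re ≤ x₁) (h3 : y₀ ≤ z.im) (h4 : z.im ≤ y₁) :
    z ∈ closure (Rc x₀ x₁ y₀ y₁) := by
  unfold Rc
  rw [Complex.closure_reProdIm, closure_Ioo hx.ne, closure_Ioo hy.ne, Complex.mem_reProdIm]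
  exact ⟨⟨h1, h2⟩, h3, h4⟩

theorem rectH {T : Finset (ℤ × ℤ)} {f : ℤ × ℤ} (h1 : f ∈ T) (h2 : (f.1 + 1, f.2) ∈ T) :
    Rc f.1 (f.1 + 2) f.2 (f.2 + 1) ⊆ interior (region 1 T) := by
  refine interior_maximal (fun z hz => ?_) isOpen_Rc
  rw [mem_Rc] at hz
  obtain ⟨⟨a1, a2⟩, a3, a4⟩ := hz
  rcases le_total z.re (f.1 + 1) with h | h
  · exact ⟨f, h1, by simp only [one_mul]; exact ⟨a1.le, h, a3.le, a4.le⟩⟩
  · refine ⟨_, h2, ?_⟩
    simp only [one_mul]
    push_cast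
    exact ⟨h, by linarith, a3.le, a4.le⟩

theorem rectV {T : Finset (ℤ × ℤ)} {f : ℤ × ℤ} (h1 : f ∈ T) (h2 : (f.1, f.2 + 1) ∈ T) :
    Rc f.1 (f.1 + 1) f.2 (f.2 + 2) ⊆ interior (region 1 T) := by
  refine interior_maximal (fun z hz => ?_) isOpen_Rc
  rw [mem_Rc] at hz
  obtain ⟨⟨a1, a2⟩, a3, a4⟩ := hz
  rcases le_total z.im (f.2 + 1) with h | h
  · exact ⟨f, h1, by simp only [one_mul]; exact ⟨a1.le, a2.le, a3.le, h⟩⟩
  · refine ⟨_, h2, ?_⟩
    simp only [one_mul]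
    push_cast
    exact ⟨a1.le, a2.le, h, by linarith⟩

theorem Rc_sub_ball {x₀ x₁ y₀ y₁ : ℝ} {m : ℂ} (h1 : m.re - 2 ≤ x₀) (h2 : x₁ ≤ m.re + 2)
    (h3 : m.im - 3 ≤ y₀) (h4 : y₁ ≤ m.im + 3) : Rc x₀ x₁ y₀ y₁ ⊆ ball m 5 := by
  intro z hz
  rw [mem_Rc] at hz
  obtain ⟨⟨a1, a2⟩, a3, a4⟩ := hz
  rw [mem_ball, Complex.dist_eq]
  refine (Complex.norm_le_abs_re_add_abs_im _).trans_lt ?_
  rw [Complex.sub_re, Complex.sub_im]
  have b1 : |z.re - m.re| < 2 := abs_lt.2 ⟨by linarith, by linarith⟩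
  have b2 : |z.im - m.im| < 3 := abs_lt.2 ⟨by linarith, by linarith⟩
  linarith

theorem region_mono {T T' : Finset (ℤ × ℤ)} (h : T ⊆ T') : region 1 T ⊆ region 1 T' := by
  rintro z ⟨f, hf, h1⟩
  exact ⟨f, h hf, h1⟩

/-- The set `C` is prolonged by `K`. -/
theorem reach_of {T T' : Finset (ℤ × ℤ)} {K C : Set ℂ} {mid mark : ℂ} (hT : T ⊆ T')
    (hK : IsPreconnected K) (h1 : mid ∈ K) (h2 : K ⊆ interior (region 1 T')) (h3 : K ⊆ ball mid 5)
    (h4 : mark ∈ closure K) (hC : C ⊆ interior (region 1 T)) (hCc : IsPreconnected C)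
    (hm : mid ∈ closure C) :
    ∃ C', C ⊆ C' ∧ IsPreconnected C' ∧ C' ⊆ interior (region 1 T') ∧ C' ⊆ C ∪ ball mid 5 ∧
      mark ∈ closure C' := by
  refine ⟨C ∪ K, subset_union_left, ?_, ?_, union_subset_union_right _ h3,
    closure_mono subset_union_right h4⟩
  · have e : C ∪ K = (insert mid C) ∪ K := by
      ext z
      simp only [mem_union, mem_insert_iff]
      constructor
      · rintro (h | h)
        · exact Or.inl (Or.inr h)
        · exact Or.inr h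
      · rintro ((rfl | h) | h)
        · exact Or.inr h1
        · exact Or.inl h
        · exact Or.inr h
    rw [e]
    exact IsPreconnected.union mid (mem_insert _ _) h1
      (hCc.subset_closure (subset_insert _ _) (insert_subset hm subset_closure)) hK
  · exact union_subset (hC.trans (interior_mono (region_mono hT))) h2

/-! ### the refined polygon -/

variable {n : ℕ} {p : ZMod n → ℤ × ℤ} {S : Finset (ℤ × ℤ)}

theorem exists_ref (hp : IsPolygon p) (hS : Encloses p S) : ∃ q : ZMod (5 * n) → ℤ × ℤ,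
    IsPolygon q ∧ Encloses q (enl S 5) ∧ ∀ j : ℕ, q (j : ℕ) = PN p 5 j := by
  have : NeZero n := ⟨by have := hp.1; omega⟩
  rw [mul_comm 5 n]
  exact ⟨qN p 5 0, Enl.isPolygon_qN (by norm_num) hp 0, Enl.encloses_qN (by norm_num) hp hS 0,
    fun j => Enl.qN_nat (by norm_num) 0 j⟩

theorem PN_lin5 {i j : ℕ} (hj : j < 5) :
    PN p 5 (5 * i + j) = (5 : ℤ) • p (i : ZMod n) + (j : ℤ) • dir (pdir p i) := by
  rw [mul_comm]
  exact Enl.PN_lin (by norm_num) hj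

theorem PN_mod5 (m : ℕ) : (PN p 5 m).1 % 5 = 0 ∨ (PN p 5 m).2 % 5 = 0 := by
  unfold PN
  obtain ⟨x, y⟩ := p ((m / 5 : ℕ) : ZMod n)
  generalize pdir p (m / 5) = d
  fin_cases d <;> simp [dir]

theorem range_mod5 {q : ZMod (5 * n) → ℤ × ℤ} (hn : 0 < n) (hq : ∀ j : ℕ, q (j : ℕ) = PN p 5 j)
    (x : ZMod (5 * n)) {w : ℤ × ℤ} (h1 : w.1 % 5 ≠ 0) (h2 : w.2 % 5 ≠ 0) : q x ≠ w := by
  obtain ⟨m, -, rfl⟩ := zcast_val (by omega : 0 < 5 * n) x
  rw [hq m]
  rintro rfl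
  rcases PN_mod5 (p := p) m with h | h
  · exact h1 h
  · exact h2 h

/-- The properties of the gadget. -/
structure Gd (p : ZMod n → ℤ × ℤ) (S : Finset (ℤ × ℤ)) (i x k : ℕ) (B : Finset (ℤ × ℤ))
    (q : ZMod (5 * n + x) → ℤ × ℤ) : Prop where
  poly : IsPolygon q
  encl : Encloses q (enl S 5 ∪ B)
  sub : B ⊆ enl {face (p (i : ℕ)) (pdir p i - 1)} 5
  tip : q ((k + 1 : ℕ)) = q (k : ℕ) + (1, 0)
  k_ge : 5 * i + 2 ≤ k
  k_lt : k < 5 * i + 3 + x
  lo : ∀ j : ℕ, j ≤ 5 * i + 2 → q (j : ℕ) = PN p 5 j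
  hi : ∀ j : ℕ, 5 * i + 3 ≤ j → j ≤ 5 * n → q ((j + x : ℕ)) = PN p 5 j
  blk : ∀ j : ℕ, 5 * i + 2 ≤ j → j ≤ 5 * i + 3 + x →
    5 * (face (p (i : ℕ)) (pdir p i - 1)).1 ≤ (q (j : ℕ)).1 ∧
    (q (j : ℕ)).1 ≤ 5 * (face (p (i : ℕ)) (pdir p i - 1)).1 + 5 ∧
    5 * (face (p (i : ℕ)) (pdir p i - 1)).2 ≤ (q (j : ℕ)).2 ∧
    (q (j : ℕ)).2 ≤ 5 * (face (p (i : ℕ)) (pdir p i - 1)).2 + 5
  reach : ∀ C : Set ℂ, C ⊆ interior (region 1 (enl S 5)) → IsPreconnected C →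
    (pt (PN p 5 (5 * i + 2)) + pt (PN p 5 (5 * i + 3))) / 2 ∈ closure C →
    ∃ C', C ⊆ C' ∧ IsPreconnected C' ∧ C' ⊆ interior (region 1 (enl S 5 ∪ B)) ∧
      C' ⊆ C ∪ ball ((pt (PN p 5 (5 * i + 2)) + pt (PN p 5 (5 * i + 3))) / 2) 5 ∧
      pt (q (k : ℕ)) + 1 / 2 ∈ closure C'

/-- **[OutN]** The gadget. -/
theorem gadget (hp : IsPolygon p) (hS : Encloses p S) (i : ℕ) (hi : i < n) :
    ∃ (x k : ℕ) (B : Finset (ℤ × ℤ)) (q : ZMod (5 * n + x) → ℤ × ℤ), Gd p S i x k B q := by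
  have hn : 2 < n := hp.1
  obtain ⟨q, hq, hE, hqj⟩ := exists_ref hp hS
  obtain ⟨r, hr⟩ : ∃ r, r = pdir p i := ⟨_, rfl⟩
  obtain ⟨X, hX⟩ : ∃ X, X = p (i : ℕ) := ⟨_, rfl⟩
  have hu : PN p 5 (5 * i + 2) = (5 : ℤ) • X + (2 : ℤ) • dir r := by
    rw [PN_lin5 (by norm_num), ← hr, ← hX]; rfl
  have hu' : PN p 5 (5 * i + 3) = (5 : ℤ) • X + (3 : ℤ) • dir r := by
    rw [PN_lin5 (by norm_num), ← hr, ← hX]; rfl
  have hst : q ((5 * i + 2 + 1 : ℕ)) = q ((5 * i + 2 : ℕ)) + dir r := by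
    rw [hqj, hqj, hu, show 5 * i + 2 + 1 = 5 * i + 3 from rfl, hu', add_assoc]
    congr 1
    rw [show (3 : ℤ) = 2 + 1 from rfl, add_smul, one_smul]
  have hin : face (q ((5 * i + 2 : ℕ))) r ∈ enl S 5 :=
    ((hE (q ((5 * i + 2 : ℕ))) r).1 ⟨_, rfl, by push_cast at hst ⊢; exact hst⟩).1
  obtain ⟨X1, X2⟩ := X
  have hrn : ∀ (x : ZMod (5 * n)) {w : ℤ × ℤ}, w.1 % 5 ≠ 0 → w.2 % 5 ≠ 0 → q x ≠ w :=
    fun x w h1 h2 => range_mod5 (by omega) hqj x h1 h2
  have henl : ∀ G w : ℤ × ℤ, 5 * G.1 ≤ w.1 → w.1 < 5 * G.1 + 5 → 5 * G.2 ≤ w.2 →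
      w.2 < 5 * G.2 + 5 → w ∈ enl {G} 5 := by
    intro G w h1 h2 h3 h4
    rw [Enl.mem_enl_div (by norm_num)]
    rw [Finset.mem_singleton]
    apply Prod.ext
    · show w.1 / ((5 : ℕ) : ℤ) = G.1
      push_cast
      omega
    · show w.2 / ((5 : ℕ) : ℤ) = G.2
      push_cast
      omega
  have h4 : r = 0 ∨ r = 1 ∨ r = 2 ∨ r = 3 := by
    fin_cases r <;> simp
  rcases h4 with h4 | h4 | h4 | h4
  · -- the side is in the direction `(1, 0)`
    subst h4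
    refine ⟨0, 5 * i + 2, ∅, q, hq, ?_, by simp, ?_, le_rfl, by omega, fun j _ => hqj j,
      fun j _ _ => hqj j, ?_,
      fun C hC h1 h2 => ⟨C, subset_rfl, h1, ?_, subset_union_left, ?_⟩⟩
    · rw [Finset.union_empty]; exact hE
    · rw [hst]; rfl
    · intro j j1 j2
      rw [← hX, ← hr]
      rcases (by omega : j = 5 * i + 2 ∨ j = 5 * i + 3) with rfl | rfl
      · rw [hqj, hu]; simp [face, dir] <;> omega
      · rw [hqj, hu']; simp [face, dir] <;> omega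
    · rw [Finset.union_empty]; exact hC
    · have e : pt (q ((5 * i + 2 : ℕ))) + 1 / 2 =
          (pt (PN p 5 (5 * i + 2)) + pt (PN p 5 (5 * i + 3))) / 2 := by
        rw [hqj, hu, hu']
        apply Complex.ext <;> simp [pt, dir] <;> ring
      rw [e]; exact h2
  · -- the side goes up
    subst h4
    have hst' : q ((5 * i + 2 + 1 : ℕ)) = q ((5 * i + 2 : ℕ)) + dir (0 + 1) := hst
    obtain ⟨q', h1, h2, h3, h5, h6, h7, h8⟩ := exists_bump hq hE (i := 5 * i + 2) (by omega) hst'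
      (fun x => hrn x (by rw [hqj, hu]; simp [dir] <;> omega) (by rw [hqj, hu]; simp [dir] <;> omega))
      (fun x => hrn x (by rw [hqj, hu]; simp [dir] <;> omega) (by rw [hqj, hu]; simp [dir] <;> omega))
    obtain ⟨g, hg⟩ : ∃ g, g = face (q ((5 * i + 2 : ℕ))) 0 := ⟨_, rfl⟩
    have hg' : g = (5 * X1, 5 * X2 + 2) := by
      rw [hg, hqj, hu]
      simp [face, dir]
    rw [← hg] at h2
    have hT : enl S 5 ∪ {g} = insert g (enl S 5) := by
      ext w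
      simp only [Finset.mem_union, Finset.mem_singleton, Finset.mem_insert]
      tauto
    have hin' : (5 * X1 - 1, 5 * X2 + 2) ∈ enl S 5 := by
      have h := hin
      rw [hqj, hu, face1] at h
      simpa [dir] using h
    refine ⟨2, 5 * i + 2, {g}, q', h1, by rw [hT]; exact h2, ?_, ?_, le_rfl, by omega, ?_, ?_, ?_, ?_⟩
    · rw [Finset.singleton_subset_iff, ← hX, ← hr, hg']
      refine henl _ _ ?_ ?_ ?_ ?_ <;> simp [face]
    · rw [show 5 * i + 2 + 1 = 5 * i + 2 + 1 from rfl, h5, h3 _ le_rfl]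
      rfl
    · intro j hj
      rw [h3 j hj, hqj]
    · intro j hj1 hj2
      rw [h7 j (by omega) hj2, hqj]
    · intro j j1 j2
      rw [← hX, ← hr]
      rcases (by omega : j = 5 * i + 2 ∨ j = 5 * i + 2 + 1 ∨ j = 5 * i + 2 + 2 ∨ j = 5 * i + 3 + 2)
        with rfl | rfl | rfl | rfl
      · rw [h3 _ le_rfl, hqj, hu]; simp [face, dir] <;> omega
      · rw [h5, hqj, hu]; simp [face, dir] <;> omega
      · rw [h6, hqj, hu]; simp [face, dir] <;> omega
      · rw [h7 _ (by omega) (by omega), hqj, hu']; simp [face, dir] <;> omega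
    · intro C hC hC1 hC2
      refine reach_of Finset.subset_union_left (K := Rc ((5 * X1 - 1 : ℤ) : ℝ)
        ((5 * X1 - 1 : ℤ) + 2) ((5 * X2 + 2 : ℤ) : ℝ) ((5 * X2 + 2 : ℤ) + 1)) pc_Rc ?_ ?_ ?_ ?_
        hC hC1 hC2
      · rw [hu, hu', mem_Rc]
        refine ⟨⟨?_, ?_⟩, ?_, ?_⟩ <;> simp [pt, dir] <;> linarith
      · refine rectH (f := (5 * X1 - 1, 5 * X2 + 2)) (Finset.mem_union_left _ hin') ?_
        rw [Finset.mem_union, Finset.mem_singleton, hg']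
        right
        exact Prod.ext (by simp) rfl
      · rw [hu, hu']
        refine Rc_sub_ball ?_ ?_ ?_ ?_ <;> simp [pt, dir] <;> linarith
      · rw [h3 _ le_rfl, hqj, hu]
        refine mem_closure_Rc ?_ ?_ ?_ ?_ ?_ ?_ <;> simp [pt, dir] <;> linarith
  · -- the side goes to the left
    subst h4
    have hst' : q ((5 * i + 2 + 1 : ℕ)) = q ((5 * i + 2 : ℕ)) + dir (1 + 1) := hst
    have hU : q ((5 * i + 2 : ℕ)) = (5 * X1 - 2, 5 * X2) := by
      rw [hqj, hu]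
      simp [dir, Prod.ext_iff]
      omega
    obtain ⟨q1, a1, a2, a3, a5, a6, a7, a8⟩ := exists_bump hq hE (i := 5 * i + 2) (by omega) hst'
      (fun x => hrn x (by rw [hU]; simp [dir] <;> omega) (by rw [hU]; simp [dir] <;> omega))
      (fun x => hrn x (by rw [hU]; simp [dir] <;> omega) (by rw [hU]; simp [dir] <;> omega))
    have hA1 : q1 ((5 * i + 3 : ℕ)) = (5 * X1 - 2, 5 * X2 + 1) := by
      rw [show 5 * i + 3 = 5 * i + 2 + 1 from rfl, a5, hU]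
      simp [dir]
    have hB1 : q1 ((5 * i + 4 : ℕ)) = (5 * X1 - 3, 5 * X2 + 1) := by
      rw [show 5 * i + 4 = 5 * i + 2 + 2 from rfl, a6, hU]
      simp [dir, Prod.ext_iff]
      omega
    have hr1 : ∀ x (w : ℤ × ℤ), w.1 % 5 ≠ 0 → w.2 % 5 = 2 → q1 x ≠ w := by
      intro x w h1 h2 h
      rcases a8 x with ⟨y, hy⟩ | hy | hy
      · exact hrn y h1 (by omega) (hy.symm.trans h)
      · rw [hy, hU] at h
        rw [← h] at h2
        simp [dir] at h2
      · rw [hy, hU] at h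
        rw [← h] at h2
        simp [dir] at h2
    have hst1 : q1 ((5 * i + 3 + 1 : ℕ)) = q1 ((5 * i + 3 : ℕ)) + dir (1 + 1) := by
      rw [show 5 * i + 3 + 1 = 5 * i + 4 from rfl, hA1, hB1]
      simp [dir, Prod.ext_iff]
      omega
    obtain ⟨q2, b1, b2, b3, b5, b6, b7, b8⟩ := exists_bump a1 a2 (i := 5 * i + 3) (by omega) hst1
      (fun x => hr1 x _ (by rw [hA1]; simp [dir] <;> omega) (by rw [hA1]; simp [dir] <;> omega))
      (fun x => hr1 x _ (by rw [hA1]; simp [dir] <;> omega) (by rw [hA1]; simp [dir] <;> omega))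
    have hA2 : q2 ((5 * i + 4 : ℕ)) = (5 * X1 - 2, 5 * X2 + 2) := by
      rw [show 5 * i + 4 = 5 * i + 3 + 1 from rfl, b5, hA1]
      simp [dir, Prod.ext_iff]
      omega
    have hC2 : q2 ((5 * i + 3 : ℕ)) = (5 * X1 - 2, 5 * X2 + 1) := by rw [b3 _ le_rfl, hA1]
    have hr2 : ∀ x (w : ℤ × ℤ), w.1 = 5 * X1 - 1 → (w.2 % 5 = 1 ∨ w.2 % 5 = 2) → q2 x ≠ w := by
      intro x w h1 h2 h
      rcases b8 x with ⟨y, hy⟩ | hy | hy
      · rcases a8 y with ⟨z, hz⟩ | hz | hz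
        · exact hrn z (by omega) (by omega) (hz.symm.trans (hy.symm.trans h))
        · rw [hy, hz, hU] at h
          rw [← h] at h1
          simp [dir] at h1
        · rw [hy, hz, hU] at h
          rw [← h] at h1
          simp [dir] at h1
          omega
      · rw [hy, hA1] at h
        rw [← h] at h1
        simp [dir] at h1
      · rw [hy, hA1] at h
        rw [← h] at h1
        simp [dir] at h1
        omega
    have hst2 : q2 ((5 * i + 3 + 1 : ℕ)) = q2 ((5 * i + 3 : ℕ)) + dir (0 + 1) := by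
      rw [show 5 * i + 3 + 1 = 5 * i + 4 from rfl, hA2, hC2]
      simp [dir, Prod.ext_iff]
      omega
    obtain ⟨q3, c1, c2, c3, c5, c6, c7, c8⟩ := exists_bump b1 b2 (i := 5 * i + 3) (by omega) hst2
      (fun x => hr2 x _ (by rw [hC2]; simp [dir] <;> omega) (by rw [hC2]; simp [dir] <;> omega))
      (fun x => hr2 x _ (by rw [hC2]; simp [dir] <;> omega) (by rw [hC2]; simp [dir] <;> omega))
    have e1 : face (q ((5 * i + 2 : ℕ))) 1 = (5 * X1 - 3, 5 * X2) := by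
      rw [hU, face1]
      exact Prod.ext (by simp; omega) rfl
    have e2 : face (q1 ((5 * i + 3 : ℕ))) 1 = (5 * X1 - 3, 5 * X2 + 1) := by
      rw [hA1, face1]
      exact Prod.ext (by simp; omega) rfl
    have e3 : face (q2 ((5 * i + 3 : ℕ))) 0 = (5 * X1 - 2, 5 * X2 + 1) := by
      rw [hC2, face0]
    rw [e1, e2, e3] at c2
    have hT : enl S 5 ∪ {(5 * X1 - 3, 5 * X2), (5 * X1 - 3, 5 * X2 + 1), (5 * X1 - 2, 5 * X2 + 1)} =
        insert (5 * X1 - 2, 5 * X2 + 1) (insert (5 * X1 - 3, 5 * X2 + 1)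
          (insert (5 * X1 - 3, 5 * X2) (enl S 5))) := by
      ext w
      simp only [Finset.mem_union, Finset.mem_singleton, Finset.mem_insert]
      tauto
    have hin' : (5 * X1 - 3, 5 * X2 - 1) ∈ enl S 5 := by
      have h := hin
      rw [hU, face2] at h
      have e : (5 * X1 - 3, 5 * X2 - 1) = (5 * X1 - 2 - 1, 5 * X2 - 1) := Prod.ext (by simp; omega) rfl
      rw [e]; exact h
    refine ⟨6, 5 * i + 3, {(5 * X1 - 3, 5 * X2), (5 * X1 - 3, 5 * X2 + 1),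
      (5 * X1 - 2, 5 * X2 + 1)}, q3, c1, by rw [hT]; exact c2, ?_, ?_, by omega, by omega, ?_, ?_, ?_,
      ?_⟩
    · rw [← hX, ← hr]
      intro w hw
      simp only [Finset.mem_insert, Finset.mem_singleton] at hw
      rcases hw with rfl | rfl | rfl <;> refine henl _ _ ?_ ?_ ?_ ?_ <;> simp [face] <;> omega
    · rw [c5, c3 _ le_rfl]
      rfl
    · intro j hj
      rw [c3 j (by omega), b3 j (by omega), a3 j hj, hqj]
    · intro j hj1 hj2
      rw [show j + 6 = (j + 2 + 2) + 2 from rfl, c7 _ (by omega) (by omega), b7 _ (by omega) (by omega),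
        a7 _ (by omega) (by omega), hqj]
    · intro j j1 j2
      rw [← hX, ← hr]
      rcases (by omega : j = 5 * i + 2 ∨ j = 5 * i + 3 ∨ j = 5 * i + 3 + 1 ∨ j = 5 * i + 3 + 2 ∨
        j = 5 * i + 4 + 2 ∨ j = (5 * i + 3 + 2) + 2 ∨ j = (5 * i + 4 + 2) + 2 ∨
        j = (5 * i + 3 + 2 + 2) + 2) with rfl | rfl | rfl | rfl | rfl | rfl | rfl | rfl
      · rw [c3 _ (by omega), b3 _ (by omega), a3 _ (by omega), hU]; simp [face]; omega
      · rw [c3 _ (by omega), hC2]; simp [face]; omega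
      · rw [c5, hC2]; simp [face, dir]; omega
      · rw [c6, hC2]; simp [face, dir]; omega
      · rw [c7 _ (by omega) (by omega), hA2]; simp [face]; omega
      · rw [c7 _ (by omega) (by omega), b6, hA1]; simp [face, dir]; omega
      · rw [c7 _ (by omega) (by omega), b7 _ (by omega) (by omega), hB1]; simp [face]; omega
      · rw [c7 _ (by omega) (by omega), b7 _ (by omega) (by omega), a7 _ (by omega) (by omega), hqj,
          hu']
        simp [face, dir]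
        omega
    · intro C hC hC1 hC2'
      have hm1 : ((5 * X1 - 3, 5 * X2) : ℤ × ℤ) ∈ enl S 5 ∪ {(5 * X1 - 3, 5 * X2),
          (5 * X1 - 3, 5 * X2 + 1), (5 * X1 - 2, 5 * X2 + 1)} := by simp
      have hm2 : ((5 * X1 - 3, 5 * X2 + 1) : ℤ × ℤ) ∈ enl S 5 ∪ {(5 * X1 - 3, 5 * X2),
          (5 * X1 - 3, 5 * X2 + 1), (5 * X1 - 2, 5 * X2 + 1)} := by simp
      have hm3 : ((5 * X1 - 2, 5 * X2 + 1) : ℤ × ℤ) ∈ enl S 5 ∪ {(5 * X1 - 3, 5 * X2),
          (5 * X1 - 3, 5 * X2 + 1), (5 * X1 - 2, 5 * X2 + 1)} := by simp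
      refine reach_of Finset.subset_union_left (K := (Rc ((5 * X1 - 3 : ℤ) : ℝ)
        ((5 * X1 - 3 : ℤ) + 1) ((5 * X2 - 1 : ℤ) : ℝ) ((5 * X2 - 1 : ℤ) + 2) ∪
          Rc ((5 * X1 - 3 : ℤ) : ℝ) ((5 * X1 - 3 : ℤ) + 1) ((5 * X2 : ℤ) : ℝ) ((5 * X2 : ℤ) + 2)) ∪
          Rc ((5 * X1 - 3 : ℤ) : ℝ) ((5 * X1 - 3 : ℤ) + 2) ((5 * X2 + 1 : ℤ) : ℝ)
            ((5 * X2 + 1 : ℤ) + 1)) ?_ ?_ ?_ ?_ ?_ hC hC1 hC2'
      · refine IsPreconnected.union ⟨5 * X1 - 5 / 2, 5 * X2 + 3 / 2⟩ (Or.inr ?_) ?_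
          (IsPreconnected.union ⟨5 * X1 - 5 / 2, 5 * X2 + 1 / 2⟩ ?_ ?_ pc_Rc pc_Rc) pc_Rc
        all_goals
          rw [mem_Rc]
          push_cast
          refine ⟨⟨?_, ?_⟩, ?_, ?_⟩ <;> linarith
      · left; left
        rw [hu, hu', mem_Rc]
        refine ⟨⟨?_, ?_⟩, ?_, ?_⟩ <;> simp [pt, dir] <;> linarith
      · refine union_subset (union_subset ?_ ?_) ?_
        · refine rectV (f := (5 * X1 - 3, 5 * X2 - 1)) (Finset.mem_union_left _ hin') ?_
          have e : (5 * X1 - 3, 5 * X2 - 1 + 1) = (5 * X1 - 3, 5 * X2) := Prod.ext rfl (by simp)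
          rw [e]; exact hm1
        · exact rectV (f := (5 * X1 - 3, 5 * X2)) hm1 hm2
        · refine rectH (f := (5 * X1 - 3, 5 * X2 + 1)) hm2 ?_
          have e : (5 * X1 - 3 + 1, 5 * X2 + 1) = (5 * X1 - 2, 5 * X2 + 1) :=
            Prod.ext (by simp; omega) rfl
          rw [e]; exact hm3
      · rw [hu, hu']
        refine union_subset (union_subset ?_ ?_) ?_ <;> refine Rc_sub_ball ?_ ?_ ?_ ?_ <;>
          simp [pt, dir] <;> linarith
      · refine closure_mono subset_union_right ?_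
        rw [c3 _ le_rfl, hC2]
        refine mem_closure_Rc ?_ ?_ ?_ ?_ ?_ ?_ <;> simp [pt] <;> linarith
  · -- the side goes down
    subst h4
    have hst' : q ((5 * i + 2 + 1 : ℕ)) = q ((5 * i + 2 : ℕ)) + dir (2 + 1) := hst
    obtain ⟨q', h1, h2, h3, h5, h6, h7, h8⟩ := exists_bump hq hE (i := 5 * i + 2) (by omega) hst'
      (fun x => hrn x (by rw [hqj, hu]; simp [dir] <;> omega) (by rw [hqj, hu]; simp [dir] <;> omega))
      (fun x => hrn x (by rw [hqj, hu]; simp [dir] <;> omega) (by rw [hqj, hu]; simp [dir] <;> omega))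
    obtain ⟨g, hg⟩ : ∃ g, g = face (q ((5 * i + 2 : ℕ))) 2 := ⟨_, rfl⟩
    have hg' : g = (5 * X1 - 1, 5 * X2 - 3) := by
      rw [hg, hqj, hu]
      simp [face, dir, Prod.ext_iff]
      omega
    rw [← hg] at h2
    have hT : enl S 5 ∪ {g} = insert g (enl S 5) := by
      ext w
      simp only [Finset.mem_union, Finset.mem_singleton, Finset.mem_insert]
      tauto
    have hin' : (5 * X1, 5 * X2 - 3) ∈ enl S 5 := by
      have h := hin
      rw [hqj, hu, face3] at h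
      have e : (5 * X1, 5 * X2 - 3) = ((((5 : ℤ) • (X1, X2) + (2 : ℤ) • dir 3)).1,
          ((5 : ℤ) • (X1, X2) + (2 : ℤ) • dir 3).2 - 1) := by
        simp [dir]
        ring
      rw [e]; exact h
    refine ⟨2, 5 * i + 4, {g}, q', h1, by rw [hT]; exact h2, ?_, ?_, by omega, by omega, ?_, ?_, ?_,
      ?_⟩
    · rw [Finset.singleton_subset_iff, ← hX, ← hr, hg']
      refine henl _ _ ?_ ?_ ?_ ?_ <;> simp [face] <;> omega
    · rw [show 5 * i + 4 + 1 = (5 * i + 3) + 2 from rfl, h7 _ (by omega) (by omega),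
        show 5 * i + 4 = 5 * i + 2 + 2 from rfl, h6, hqj, hqj, hu, hu']
      simp [dir, Prod.ext_iff]
      omega
    · intro j hj
      rw [h3 j hj, hqj]
    · intro j hj1 hj2
      rw [h7 j (by omega) hj2, hqj]
    · intro j j1 j2
      rw [← hX, ← hr]
      rcases (by omega : j = 5 * i + 2 ∨ j = 5 * i + 2 + 1 ∨ j = 5 * i + 2 + 2 ∨ j = 5 * i + 3 + 2)
        with rfl | rfl | rfl | rfl
      · rw [h3 _ le_rfl, hqj, hu]; simp [face, dir] <;> omega
      · rw [h5, hqj, hu]; simp [face, dir] <;> omega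
      · rw [h6, hqj, hu]; simp [face, dir] <;> omega
      · rw [h7 _ (by omega) (by omega), hqj, hu']; simp [face, dir] <;> omega
    · intro C hC hC1 hC2
      refine reach_of Finset.subset_union_left (K := Rc ((5 * X1 - 1 : ℤ) : ℝ)
        ((5 * X1 - 1 : ℤ) + 2) ((5 * X2 - 3 : ℤ) : ℝ) ((5 * X2 - 3 : ℤ) + 1)) pc_Rc ?_ ?_ ?_ ?_
        hC hC1 hC2
      · rw [hu, hu', mem_Rc]
        refine ⟨⟨?_, ?_⟩, ?_, ?_⟩ <;> simp [pt, dir] <;> linarith
      · refine rectH (f := (5 * X1 - 1, 5 * X2 - 3)) ?_ (Finset.mem_union_left _ ?_)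
        · rw [Finset.mem_union, Finset.mem_singleton, hg']
          exact Or.inr rfl
        · have e : (5 * X1 - 1 + 1, 5 * X2 - 3) = (5 * X1, 5 * X2 - 3) := Prod.ext (by simp) rfl
          rw [e]; exact hin'
      · rw [hu, hu']
        refine Rc_sub_ball ?_ ?_ ?_ ?_ <;> simp [pt, dir] <;> linarith
      · rw [show 5 * i + 4 = 5 * i + 2 + 2 from rfl, h6, hqj, hu]
        refine mem_closure_Rc ?_ ?_ ?_ ?_ ?_ ?_ <;> simp [pt, dir] <;> linarith

end Vale.Agent.P167.H632G
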