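import Vale.Agent.P167.H632.G.Shp3
import Vale.Agent.P167.H450.OutP
import Vale.Agent.P167.E6.Poly6

/-!
# P167, general `q`, SAND-GEO [SHAPE]: scaling of regions
-/

set_option autoImplicit false

namespace Vale.Agent.P167.H632G

open Metric Set
open Vale.Agent.P167.E6 (IsPolygon Encloses dir face pt region D6 closure_D6)
open Vale.Agent.P167.H825 (enl pdir)
open Vale.Agent.P167.Enl (PN)
open Vale.Agent.P167.H450 (sqr reg)

variable {u : ℝ} {T T' : Finset (ℤ × ℤ)} {z : ℂ}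

theorem div_re' (u : ℝ) (z : ℂ) : (z / (u : ℂ)).re = z.re / u := Complex.div_ofReal_re z u

theorem div_im' (u : ℝ) (z : ℂ) : (z / (u : ℂ)).im = z.im / u := Complex.div_ofReal_im z u

theorem mem_region_div (hu : 0 < u) : z ∈ region u T ↔ z / (u : ℂ) ∈ region 1 T := by
  unfold region
  simp only [mem_ofPred_eq, div_re', div_im', one_mul]
  refine exists_congr fun f => and_congr_right fun _ => ?_
  rw [le_div_iff₀ hu, div_le_iff₀ hu, le_div_iff₀ hu, div_le_iff₀ hu, mul_comm (f.1 : ℝ) u,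
    mul_comm ((f.1 : ℝ) + 1) u, mul_comm (f.2 : ℝ) u, mul_comm ((f.2 : ℝ) + 1) u]

/-- The homeomorphism `z ↦ z / u`. -/
noncomputable def hdiv (hu : 0 < u) : ℂ ≃ₜ ℂ :=
  Homeomorph.mulRight₀ ((u : ℂ)⁻¹) (inv_ne_zero (Complex.ofReal_ne_zero.2 hu.ne'))

theorem hdiv_apply (hu : 0 < u) (z : ℂ) : hdiv hu z = z / (u : ℂ) := rfl

theorem region_eq_pre (hu : 0 < u) : region u T = hdiv hu ⁻¹' region 1 T := by
  ext z
  rw [mem_preimage, hdiv_apply, mem_region_div hu]

theorem mem_int_div (hu : 0 < u) :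
    z ∈ interior (region u T) ↔ z / (u : ℂ) ∈ interior (region 1 T) := by
  rw [region_eq_pre hu, ← (hdiv hu).preimage_interior, mem_preimage, hdiv_apply]

/-- The enlargement by `5`. -/
theorem region_enl5 (hu : 0 < u) : region u (enl T 5) = region (5 * u) T := by
  ext z
  constructor
  · rintro ⟨w, hw, h1, h2, h3, h4⟩
    rw [floor5] at hw
    refine ⟨_, hw, ?_, ?_, ?_, ?_⟩
    · have h := Int.mul_ediv_self_le (x := w.1) (k := 5) (by norm_num)
      have h' : (5 : ℝ) * ((w.1 / 5 : ℤ) : ℝ) ≤ w.1 := by exact_mod_cast h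
      show 5 * u * ((w.1 / 5 : ℤ) : ℝ) ≤ z.re
      nlinarith
    · have h : w.1 < 5 * (w.1 / 5) + 5 := by omega
      have h' : (w.1 : ℝ) + 1 ≤ 5 * ((w.1 / 5 : ℤ) : ℝ) + 5 := by exact_mod_cast h
      show z.re ≤ 5 * u * (((w.1 / 5 : ℤ) : ℝ) + 1)
      nlinarith
    · have h := Int.mul_ediv_self_le (x := w.2) (k := 5) (by norm_num)
      have h' : (5 : ℝ) * ((w.2 / 5 : ℤ) : ℝ) ≤ w.2 := by exact_mod_cast h
      show 5 * u * ((w.2 / 5 : ℤ) : ℝ) ≤ z.im
      nlinarith
    · have h : w.2 < 5 * (w.2 / 5) + 5 := by omega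
      have h' : (w.2 : ℝ) + 1 ≤ 5 * ((w.2 / 5 : ℤ) : ℝ) + 5 := by exact_mod_cast h
      show z.im ≤ 5 * u * (((w.2 / 5 : ℤ) : ℝ) + 1)
      nlinarith
  · rintro ⟨f, hf, h1, h2, h3, h4⟩
    have key : ∀ (a : ℤ) (x : ℝ), 5 * u * a ≤ x → x ≤ 5 * u * (a + 1) →
        ∃ b : ℤ, b / 5 = a ∧ u * b ≤ x ∧ x ≤ u * (b + 1) := by
      intro a x hx1 hx2
      by_cases hc : x < 5 * u * (a + 1)
      · refine ⟨⌊x / u⌋, ?_, ?_, ?_⟩
        · have g1 : (5 * a : ℤ) ≤ ⌊x / u⌋ := by
            rw [Int.le_floor, le_div_iff₀ hu]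
            push_cast
            linarith
          have g2 : ⌊x / u⌋ < 5 * a + 5 := by
            rw [Int.floor_lt, div_lt_iff₀ hu]
            push_cast
            linarith
          omega
        · have := Int.floor_le (x / u)
          rw [le_div_iff₀ hu] at this
          linarith
        · have := Int.lt_floor_add_one (x / u)
          rw [div_lt_iff₀ hu] at this
          linarith
      · have he : x = 5 * u * (a + 1) := le_antisymm hx2 (not_lt.1 hc)
        refine ⟨5 * a + 4, by omega, ?_, ?_⟩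
        · push_cast
          rw [he]
          nlinarith
        · push_cast
          rw [he]
          nlinarith
    obtain ⟨b, b1, b2, b3⟩ := key f.1 z.re h1 h2
    obtain ⟨c, c1, c2, c3⟩ := key f.2 z.im h3 h4
    refine ⟨(b, c), ?_, b2, b3, c2, c3⟩
    rw [floor5]
    show (b / 5, c / 5) ∈ T
    rw [b1, c1]
    exact hf

theorem region_union : region u (T ∪ T') = region u T ∪ region u T' := by
  ext z
  simp only [region, Finset.mem_union, mem_ofPred_eq, mem_union]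
  constructor
  · rintro ⟨f, hf | hf, h⟩
    · exact Or.inl ⟨f, hf, h⟩
    · exact Or.inr ⟨f, hf, h⟩
  · rintro (⟨f, hf, h⟩ | ⟨f, hf, h⟩)
    · exact ⟨f, Or.inl hf, h⟩
    · exact ⟨f, Or.inr hf, h⟩

theorem region_mono' (h : T ⊆ T') : region u T ⊆ region u T' := by
  rintro z ⟨f, hf, h'⟩
  exact ⟨f, h hf, h'⟩

theorem region_singleton {F : ℤ × ℤ} {ℓ : ℝ} : region ℓ {F} = sqr ℓ F := by
  ext z
  unfold region sqr
  simp

/-- The translated region. -/
theorem mem_region_add (hu : 0 < u) {a : ℤ} :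
    z + ((a * u : ℝ) : ℂ) ∈ region u (T.image (· + ((a, 0) : ℤ × ℤ))) ↔ z ∈ region u T := by
  rw [mem_region_div hu, region_shift, mem_region_div hu]
  have hne : (u : ℂ) ≠ 0 := Complex.ofReal_ne_zero.2 hu.ne'
  have e : (z + ((a * u : ℝ) : ℂ)) / (u : ℂ) - (a : ℂ) = z / (u : ℂ) := by
    push_cast
    field_simp
    ring
  rw [e]

theorem mem_int_add (hu : 0 < u) {a : ℤ} :
    z + ((a * u : ℝ) : ℂ) ∈ interior (region u (T.image (· + ((a, 0) : ℤ × ℤ)))) ↔
      z ∈ interior (region u T) := by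
  rw [mem_int_div hu, int_shift, mem_int_div hu]
  have hne : (u : ℂ) ≠ 0 := Complex.ofReal_ne_zero.2 hu.ne'
  have e : (z + ((a * u : ℝ) : ℂ)) / (u : ℂ) - (a : ℂ) = z / (u : ℂ) := by
    push_cast
    field_simp
    ring
  rw [e]

/-- Faces are determined by the domain. -/
theorem face_iff {ℓ : ℝ} (hℓ : 0 < ℓ) (v : ℤ × ℤ) :
    (⟨ℓ * (v.1 + 1 / 2), ℓ * (v.2 + 1 / 2)⟩ : ℂ) ∈ D6 ℓ T ↔ v ∈ T := by
  have h : D6 ℓ T = interior (reg ℓ (T : Set (ℤ × ℤ))) := rfl
  rw [h, H450.mem_interior_iff hℓ]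
  constructor
  · intro h
    exact h v ⟨by simp only; nlinarith, by simp only; nlinarith, by simp only; nlinarith,
      by simp only; nlinarith⟩
  · rintro hv F ⟨h1, h2, h3, h4⟩
    simp only at h1 h2 h3 h4
    have a1 := le_of_mul_le_mul_left h1 hℓ
    have a2 := le_of_mul_le_mul_left h2 hℓ
    have a3 := le_of_mul_le_mul_left h3 hℓ
    have a4 := le_of_mul_le_mul_left h4 hℓ
    have b1 : F.1 = v.1 := by
      have c1 : (F.1 : ℝ) < v.1 + 1 := by linarith
      have c2 : (v.1 : ℝ) < F.1 + 1 := by linarith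
      have c1' : F.1 < v.1 + 1 := by exact_mod_cast c1
      have c2' : v.1 < F.1 + 1 := by exact_mod_cast c2
      omega
    have b2 : F.2 = v.2 := by
      have c1 : (F.2 : ℝ) < v.2 + 1 := by linarith
      have c2 : (v.2 : ℝ) < F.2 + 1 := by linarith
      have c1' : F.2 < v.2 + 1 := by exact_mod_cast c1
      have c2' : v.2 < F.2 + 1 := by exact_mod_cast c2
      omega
    have : F = v := Prod.ext b1 b2
    rw [this]
    exact hv

end Vale.Agent.P167.H632G
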