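import Vale.Agent.P167.H632.G.ShX
import Vale.Agent.P167.H506.SHP.Inp

/-!
# P167, general `q`, SAND-GEO [SHAPE]: the open set of the shape of a situation `Cx`
-/

set_option autoImplicit false

namespace Vale.Agent.P167.H632G

open Metric Set Filter Topology
open Vale.Agent.P167.H450 (sqr)
open Vale.Agent.P167.H450.Out (Pm)
open Vale.Agent.P167.H450.ShpL (Gf)
open Vale.Agent.P167.H446.G (Cst Hst vd Ku)
open Vale.Agent.P167.H397.K (frm)
open Vale.Agent.P167.H704.Shp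
open Vale.Agent.P167.H506.SHP (PmU PmO)

variable {C : Cst} {K : Kst} {δ : ℕ → ℝ} {N k : ℕ → ℕ} {p : ∀ n, ZMod (N n) → ℤ × ℤ}
  {S : ℕ → Finset (ℤ × ℤ)} {ψn : ℕ → ℂ → ℂ} {s : ℝ} {n : ℕ} {A : Hst} {j : ℕ} {c : Bool} {O : Obj}

section

variable (h : Cx C K δ N k p S ψn s n A j c O) {w : ℂ}

include h

/-- The outer polygon is in the shape. -/
theorem pmo_sub (hw : frm (δ n) (v1 (p n) (k n) C.Ld s (δ n)) w ∈
    P1 C K δ N k p S ψn s n A j c O.Th) : w ∈ PmO C δ N k p s n O := by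
  have h1 := h.shd
  unfold lb at h1
  exact h1.pmu_sub (v := vd (p n) (k n) C.Ld s (δ n)) hw

theorem pmo_not (hw : w ∉ PmO C δ N k p s n O) :
    frm (δ n) (v1 (p n) (k n) C.Ld s (δ n)) w ∉ P1 C K δ N k p S ψn s n A j c O.Th :=
  fun h1 => hw (pmo_sub h h1)

/-- The shape is in the outer polygon and the square of the bump. -/
theorem pmo_sup (hw : w ∈ PmO C δ N k p s n O) :
    frm (δ n) (v1 (p n) (k n) C.Ld s (δ n)) w ∈ P1 C K δ N k p S ψn s n A j c O.Th ∨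
      frm (δ n) (v1 (p n) (k n) C.Ld s (δ n)) w ∈ sqr (lb s (δ n)) (Gf O.pc O.i) := by
  have h1 := h.shd
  unfold lb at h1 ⊢
  exact h1.pmu_sup (v := vd (p n) (k n) C.Ld s (δ n)) hw

/-- The square of the bump is near the mark. -/
theorem gf_near {z : ℂ} (hz : z ∈ sqr (lb s (δ n)) (Gf O.pc O.i)) :
    dist z O.e' ≤ 3 * lb s (δ n) := h.shd.gf hz

theorem pmo_cl (hw : w ∈ closure (PmO C δ N k p s n O)) :
    frm (δ n) (v1 (p n) (k n) C.Ld s (δ n)) w ∈ closure (P1 C K δ N k p S ψn s n A j c O.Th) ∨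
      frm (δ n) (v1 (p n) (k n) C.Ld s (δ n)) w ∈ sqr (lb s (δ n)) (Gf O.pc O.i) := by
  have h1 := h.shd
  unfold lb at h1 ⊢
  exact h1.pmu_cl (v := vd (p n) (k n) C.Ld s (δ n)) hw

/-- The frontier of the shape. -/
theorem pmo_fr (hw : w ∈ frontier (PmO C δ N k p s n O)) :
    frm (δ n) (v1 (p n) (k n) C.Ld s (δ n)) w ∈ frontier (P1 C K δ N k p S ψn s n A j c O.Th) ∨
      frm (δ n) (v1 (p n) (k n) C.Ld s (δ n)) w ∈ sqr (lb s (δ n)) (Gf O.pc O.i) := by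
  have h1 := h.shd
  unfold lb at h1 ⊢
  exact h1.pmu_fr (v := vd (p n) (k n) C.Ld s (δ n)) hw

theorem pmo_fr' (hw : w ∈ frontier (PmO C δ N k p s n O)) :
    frm (δ n) (v1 (p n) (k n) C.Ld s (δ n)) w ∈ frontier (P1 C K δ N k p S ψn s n A j c O.Th) ∨
      dist (frm (δ n) (v1 (p n) (k n) C.Ld s (δ n)) w) O.e' ≤ 3 * lb s (δ n) :=
  (pmo_fr h hw).imp_right (gf_near h)

/-- The frontier of the shape is near the domain `U1`. -/
theorem pmo_frU (hw : w ∈ frontier (PmO C δ N k p s n O)) :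
    ∃ u ∈ U1 C K δ N k p S ψn s n A j c O.Th,
      dist (frm (δ n) (v1 (p n) (k n) C.Ld s (δ n)) w) u ≤ 6 * lb s (δ n) := by
  have h1 := h.shd
  have h2 := h.isMk.fr
  unfold lb at h1 h2 ⊢
  exact h1.pmu_frU (v := vd (p n) (k n) C.Ld s (δ n)) h2 hw

end

end Vale.Agent.P167.H632G
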