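import Vale.Agent.P167.H632.G.Sc
import Vale.Agent.P167.H446.G.Defs
import Vale.Agent.P167.H450.Mov

/-!
# P167, general `q`, SAND-GEO [SHAPE]: the shape of an outer polygon

`ShD ℓ PM e te Kd p S Bm i x P` : the shape `P` (units `u = ℓ / 5`) is the polygon `PM` (mesh `ℓ`,
target `ℓ / 2`, mark `e`) with a bump at the side `i` of the mark.
-/

set_option autoImplicit false

namespace Vale.Agent.P167.H632G

open Metric Set
open Vale.Agent.P153.R2.R1 (JCurve pl pl_eq)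
open Vale.Agent.P167.E6 (IsPolygon Encloses dir face pt region D6 closure_D6 PF6 PV6 PV6_re PV6_im
  jcurve_PF6 frontier_D6 good_D6 range_PF6 isOpen_D6)
open Vale.Agent.P167.H825 (enl pdir)
open Vale.Agent.P167.Enl (PN)
open Vale.Agent.P167.QT (Sh4)
open Vale.Agent.P167.H450 (sqr reg)
open Vale.Agent.P167.H450.ShpL (Gf md Reach)
open Vale.Agent.P167.H446.G (emb ea eb)

variable {n : ℕ} {p : ZMod n → ℤ × ℤ} {S Bm : Finset (ℤ × ℤ)} {i x Kd : ℕ} {P : Sh4}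
  {ℓ te : ℝ} {PM : Set ℂ} {e : ℂ}

/-- The shape of an outer polygon. -/
structure ShD (ℓ : ℝ) (PM : Set ℂ) (e : ℂ) (te : ℝ) (Kd : ℕ) {n : ℕ} (p : ZMod n → ℤ × ℤ)
    (S Bm : Finset (ℤ × ℤ)) (i x : ℕ) (P : Sh4) : Prop where
  hℓ : 0 < ℓ
  poly : IsPolygon p
  encl : Encloses p S
  p0 : p 0 = (0, 0)
  p1 : p 1 = (1, 0)
  pm : PM = D6 ℓ S
  i1 : 1 ≤ i
  i2 : i < n
  te1 : (i : ℝ) ≤ te
  te2 : te ≤ i + 1
  te_eq : PF6 p ℓ te = e
  polyP : IsPolygon P.q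
  enclP : Encloses P.q P.S
  tipP : P.q (P.k + 1) = P.q P.k + (1, 0)
  startP : P.q 0 = ((Kd : ℤ), 0)
  m_eq : P.m = 5 * n + x
  S_eq : P.S = (enl S 5 ∪ Bm).image (· + (((Kd : ℤ) - 2, 0) : ℤ × ℤ))
  Bm_sub : Bm ⊆ enl {Gf p i} 5
  k1 : 5 * i ≤ P.k
  k2 : P.k ≤ 5 * i + x
  q1 : ∀ j : ℕ, j ≤ 5 * i → P.q j = PN p 5 (j + 2) + ((Kd : ℤ) - 2, 0)
  q2 : ∀ j : ℕ, 5 * i + 1 ≤ j → j ≤ 5 * n → P.q (j + x : ℕ) = PN p 5 (j + 2) + ((Kd : ℤ) - 2, 0)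
  q3 : ∀ j : ℕ, 5 * i ≤ j → j ≤ 5 * i + 1 + x →
    5 * (Gf p i).1 + ((Kd : ℤ) - 2) ≤ (P.q j).1 ∧ (P.q j).1 ≤ 5 * (Gf p i).1 + 5 + ((Kd : ℤ) - 2) ∧
    5 * (Gf p i).2 ≤ (P.q j).2 ∧ (P.q j).2 ≤ 5 * (Gf p i).2 + 5
  rch : Reach (interior (region 1 ((enl S 5).image (· + (((Kd : ℤ) - 2, 0) : ℤ × ℤ)))))
    (interior (region 1 P.S)) (md p i + (((Kd : ℝ) - 2 : ℝ) : ℂ)) (pt (P.q P.k) + 1 / 2)

/-- The translation. -/
noncomputable def tau (ℓ : ℝ) (Kd : ℕ) : ℂ := ((((Kd : ℝ) - 2) * (ℓ / 5) : ℝ) : ℂ)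

theorem tau_eq (ℓ : ℝ) (Kd : ℕ) : tau ℓ Kd = ((((((Kd : ℤ) - 2 : ℤ) : ℝ)) * (ℓ / 5) : ℝ) : ℂ) := by
  unfold tau
  push_cast
  rfl

/-- The points of the curve on the refined sides. -/
theorem PF_PN (hp : IsPolygon p) (u : ℝ) (a : ℕ) {f : ℝ} (h0 : 0 ≤ f) (h1 : f ≤ 1) :
    PF6 p (5 * u) ((a + f) / 5) =
      ⟨u * ((1 - f) * (PN p 5 a).1 + f * (PN p 5 (a + 1)).1),
        u * ((1 - f) * (PN p 5 a).2 + f * (PN p 5 (a + 1)).2)⟩ := by
  have e := Nat.div_add_mod' a 5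
  have hd := Nat.mod_lt a (show 0 < 5 by norm_num)
  rw [Enl.PN_succ (by norm_num) hp]
  set c := a / 5 with hc
  set d := a % 5 with hd'
  have e1 : (a : ℝ) = c * 5 + d := by rw [← e]; push_cast; ring
  have hdr : (d : ℝ) ≤ 4 := by
    have : d ≤ 4 := by omega
    exact_mod_cast this
  have hd0 : (0 : ℝ) ≤ d := by positivity
  have hPN : PN p 5 a = (5 : ℤ) • p (c : ZMod n) + (d : ℤ) • dir (pdir p c) := by
    conv_lhs => rw [← e, mul_comm c 5]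
    rw [PN_lin5 hd]
  have hst : p ((c : ZMod n) + 1) = p (c : ZMod n) + dir (pdir p c) := Enl.pdir_step hp c
  have hx1 : ((c : ℤ) : ℝ) ≤ ((a : ℝ) + f) / 5 := by
    push_cast
    rw [e1]
    linarith
  have hx2 : ((a : ℝ) + f) / 5 ≤ ((c : ℤ) : ℝ) + 1 := by
    push_cast
    rw [e1]
    linarith
  have hval : ((a : ℝ) + f) / 5 - ((c : ℤ) : ℝ) = (d + f) / 5 := by
    push_cast
    rw [e1]
    ring
  unfold PF6
  rw [pl_eq _ (c : ℤ) hx1 hx2, hval]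
  apply Complex.ext
  · rw [E6.re_comb, PV6_re, PV6_re]
    push_cast
    rw [hst, hPN]
    simp only [Prod.fst_add, Prod.smul_fst, smul_eq_mul]
    push_cast
    ring
  · rw [E6.im_comb, PV6_im, PV6_im]
    push_cast
    rw [hst, hPN]
    simp only [Prod.snd_add, Prod.smul_snd, smul_eq_mul]
    push_cast
    ring

/-- A side is in the closed square of the face outside. -/
theorem side_sub_Gf (hp : IsPolygon p) (hℓ : 0 < ℓ) {t : ℝ} (h1 : (i : ℝ) ≤ t) (h2 : t ≤ i + 1) :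
    PF6 p ℓ t ∈ sqr ℓ (Gf p i) := by
  have hst : p ((i : ZMod n) + 1) = p (i : ZMod n) + dir (pdir p i) := Enl.pdir_step hp i
  have e1 : PF6 p ℓ t = ⟨ℓ * ((p (i : ZMod n)).1 + (t - i) * (dir (pdir p i)).1),
      ℓ * ((p (i : ZMod n)).2 + (t - i) * (dir (pdir p i)).2)⟩ := by
    unfold PF6
    rw [pl_eq _ (i : ℤ) (by exact_mod_cast h1) (by exact_mod_cast h2)]
    apply Complex.ext
    · rw [E6.re_comb, PV6_re, PV6_re]
      push_cast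
      rw [hst]
      simp only [Prod.fst_add]
      push_cast
      ring
    · rw [E6.im_comb, PV6_im, PV6_im]
      push_cast
      rw [hst]
      simp only [Prod.snd_add]
      push_cast
      ring
  rw [e1]
  unfold Gf sqr
  have ht0 : 0 ≤ t - i := by linarith
  have ht1 : t - i ≤ 1 := by linarith
  generalize t - (i : ℝ) = f at ht0 ht1
  generalize pdir p i = d
  have h3 : 0 ≤ ℓ * f := by positivity
  have h4 : ℓ * f ≤ ℓ := mul_le_of_le_one_right hℓ.le ht1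
  fin_cases d <;> simp [face, dir] <;> constructorm* _ ∧ _ <;> nlinarith

namespace ShD

variable (h : ShD ℓ PM e te Kd p S Bm i x P)
include h

theorem hu : 0 < ℓ / 5 := by have := h.hℓ; positivity

theorem mem_e : e ∈ sqr ℓ (Gf p i) := by
  rw [← h.te_eq]
  exact side_sub_Gf h.poly h.hℓ h.te1 h.te2

/-- The square of the bump is near the mark. -/
theorem gf {z : ℂ} (hz : z ∈ sqr ℓ (Gf p i)) : dist z e ≤ 3 * ℓ :=
  H450.dist_le_of_bk (H450.sqr_subset_bk h.hℓ hz) (H450.sqr_subset_bk h.hℓ h.mem_e)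

theorem pm_eq : PM = interior (region (ℓ / 5) (enl S 5)) := by
  rw [region_enl5 h.hu, show 5 * (ℓ / 5) = ℓ by ring]
  exact h.pm

theorem mem_emb {z : ℂ} : z + tau ℓ Kd ∈ emb (ℓ / 5) P ↔
    z ∈ interior (region (ℓ / 5) (enl S 5 ∪ Bm)) := by
  unfold emb
  rw [tau_eq, h.S_eq]
  exact mem_int_add h.hu

theorem mem_cl {z : ℂ} : z + tau ℓ Kd ∈ closure (emb (ℓ / 5) P) ↔
    z ∈ region (ℓ / 5) (enl S 5 ∪ Bm) := by
  have : closure (emb (ℓ / 5) P) = region (ℓ / 5) P.S := closure_D6 h.hu _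
  rw [this, tau_eq, h.S_eq]
  exact mem_region_add h.hu

theorem sub {z : ℂ} (hz : z ∈ PM) : z + tau ℓ Kd ∈ emb (ℓ / 5) P := by
  rw [h.mem_emb]
  rw [h.pm_eq] at hz
  exact interior_mono (region_mono' Finset.subset_union_left) hz

theorem cl_pm : closure PM = region (ℓ / 5) (enl S 5) := by
  rw [h.pm_eq]
  exact closure_D6 h.hu _

theorem sup {z : ℂ} (hz : z + tau ℓ Kd ∈ closure (emb (ℓ / 5) P)) :
    z ∈ closure PM ∨ z ∈ sqr ℓ (Gf p i) := by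
  rw [h.mem_cl, region_union] at hz
  rcases hz with hz | hz
  · left
    rw [h.cl_pm]
    exact hz
  · right
    have h1 := region_mono' h.Bm_sub hz
    rw [region_enl5 h.hu, show 5 * (ℓ / 5) = ℓ by ring, region_singleton] at h1
    exact h1

theorem sup' {z : ℂ} (hz : z + tau ℓ Kd ∈ emb (ℓ / 5) P) :
    z ∈ PM ∨ z ∈ sqr ℓ (Gf p i) := by
  by_cases hG : z ∈ sqr ℓ (Gf p i)
  · exact Or.inr hG
  · left
    have h1 := h.mem_emb.1 hz
    have hcl : IsClosed (sqr ℓ (Gf p i)) := H450.isClosed_sqr ℓ _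
    have h2 : z ∈ interior (region (ℓ / 5) (enl S 5 ∪ Bm)) ∩ (sqr ℓ (Gf p i))ᶜ := ⟨h1, hG⟩
    have h3 : IsOpen (interior (region (ℓ / 5) (enl S 5 ∪ Bm)) ∩ (sqr ℓ (Gf p i))ᶜ) :=
      isOpen_interior.inter hcl.isOpen_compl
    have h4 : interior (region (ℓ / 5) (enl S 5 ∪ Bm)) ∩ (sqr ℓ (Gf p i))ᶜ ⊆
        region (ℓ / 5) (enl S 5) := by
      rintro w ⟨hw, hw2⟩
      have h5 := interior_subset hw
      rw [region_union] at h5
      rcases h5 with h5 | h5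
      · exact h5
      · exfalso
        apply hw2
        have h6 := region_mono' h.Bm_sub h5
        rwa [region_enl5 h.hu, show 5 * (ℓ / 5) = ℓ by ring, region_singleton] at h6
    rw [h.pm_eq]
    exact interior_maximal h4 h3 h2

theorem fr {z : ℂ} (hz : z + tau ℓ Kd ∈ frontier (emb (ℓ / 5) P)) :
    z ∈ frontier PM ∨ z ∈ sqr ℓ (Gf p i) := by
  have ho : IsOpen (emb (ℓ / 5) P) := isOpen_interior
  have ho' : IsOpen PM := by rw [h.pm]; exact isOpen_D6 _ _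
  rw [ho.frontier_eq] at hz
  rcases h.sup hz.1 with h1 | h1
  · left
    rw [ho'.frontier_eq]
    exact ⟨h1, fun h2 => hz.2 (h.sub h2)⟩
  · exact Or.inr h1

theorem ea_eq : ea (ℓ / 5) P = ((ℓ / 5 : ℝ) : ℂ) * (pt (P.q P.k) + 1 / 2) := by
  unfold ea
  rw [h.tipP, add_sub_cancel_left]
  congr 2
  apply Complex.ext <;> simp [pt]

theorem kk1 : P.k ≤ 5 * i + 1 + x := by have := h.k2; omega

theorem ea_mem : ∃ z ∈ sqr ℓ (Gf p i), ea (ℓ / 5) P = z + tau ℓ Kd := by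
  refine ⟨ea (ℓ / 5) P - tau ℓ Kd, ?_, by ring⟩
  obtain ⟨a1, a2, a3, a4⟩ := h.q3 P.k h.k1 h.kk1
  obtain ⟨b1, b2, b3, b4⟩ := h.q3 (P.k + 1) (by have := h.k1; omega) (by have := h.k2; omega)
  have hq : P.q ((P.k + 1 : ℕ)) = P.q P.k + (1, 0) := by
    push_cast
    exact h.tipP
  rw [hq] at b1 b2 b3 b4
  simp only [Prod.fst_add, Prod.snd_add, add_zero] at b1 b2 b3 b4
  have hu := h.hu
  have c1 : (5 : ℝ) * (Gf p i).1 + ((Kd : ℝ) - 2) ≤ (P.q P.k).1 := by exact_mod_cast a1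
  have c2 : ((P.q P.k).1 : ℝ) + 1 ≤ 5 * (Gf p i).1 + 5 + ((Kd : ℝ) - 2) := by exact_mod_cast b2
  have c3 : (5 : ℝ) * (Gf p i).2 ≤ (P.q P.k).2 := by exact_mod_cast a3
  have c4 : ((P.q P.k).2 : ℝ) ≤ 5 * (Gf p i).2 + 5 := by exact_mod_cast a4
  rw [h.ea_eq]
  have hre : ((((ℓ / 5 : ℝ) : ℂ) * (pt (P.q P.k) + 1 / 2) - tau ℓ Kd)).re =
      ℓ / 5 * (((P.q P.k).1 : ℝ) + 1 / 2) - ((Kd : ℝ) - 2) * (ℓ / 5) := by
    rw [tau, Complex.sub_re, Complex.re_ofReal_mul, Complex.ofReal_re]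
    simp [pt]
  have him : ((((ℓ / 5 : ℝ) : ℂ) * (pt (P.q P.k) + 1 / 2) - tau ℓ Kd)).im =
      ℓ / 5 * ((P.q P.k).2 : ℝ) := by
    rw [tau, Complex.sub_im, Complex.im_ofReal_mul, Complex.ofReal_im]
    simp [pt]
  refine ⟨?_, ?_, ?_, ?_⟩
  · rw [hre]; nlinarith
  · rw [hre]; nlinarith
  · rw [him]; nlinarith
  · rw [him]; nlinarith

theorem ea_near : dist (ea (ℓ / 5) P) (e + tau ℓ Kd) ≤ 3 * ℓ := by
  obtain ⟨z, hz, hz'⟩ := h.ea_mem
  rw [hz', dist_add_right]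
  exact h.gf hz

theorem ea_fr : ea (ℓ / 5) P ∈ frontier (emb (ℓ / 5) P) := by
  have e1 : frontier (emb (ℓ / 5) P) = range (PF6 P.q (ℓ / 5)) :=
    frontier_D6 h.hu h.polyP h.enclP
  rw [e1, range_PF6 (by have := h.polyP.1; omega)]
  refine mem_iUnion.2 ⟨(P.k : ZMod P.m), ?_⟩
  rw [h.ea_eq, h.tipP]
  refine ⟨1 / 2, 1 / 2, by norm_num, by norm_num, by norm_num, ?_⟩
  apply Complex.ext
  · simp [pt]
    ring
  · simp [pt]
    ring

end ShD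

end Vale.Agent.P167.H632G
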