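import Vale.Agent.P167.H632.G.ShD
import Vale.Agent.P167.H756.S13

/-!
# P167, general `q`, SAND-GEO [SHAPE]: the mark, the flat part, the arcs of a shape
-/

set_option autoImplicit false

namespace Vale.Agent.P167.H632G

open Metric Set
open Vale.Agent.P153.R2.R1 (JCurve pl pl_eq)
open Vale.Agent.P167.E6 (IsPolygon Encloses dir face pt region D6 closure_D6 PF6 PV6 PV6_re PV6_im
  jcurve_PF6 frontier_D6 good_D6 range_PF6 isOpen_D6)
open Vale.Agent.P167.H825 (enl pdir)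
open Vale.Agent.P167.Enl (PN)
open Vale.Agent.P167.QT (Sh4)
open Vale.Agent.P167.H450 (sqr reg)
open Vale.Agent.P167.H450.ShpL (Gf md Reach)
open Vale.Agent.P167.H446.G (emb ea eb)
open Vale.Agent.P167.H756 (FlatAt)

variable {n : ℕ} {p : ZMod n → ℤ × ℤ} {S Bm : Finset (ℤ × ℤ)} {i x Kd : ℕ} {P : Sh4}
  {ℓ te : ℝ} {PM : Set ℂ} {e : ℂ}

/-- The points of a side. -/
theorem PF_side (hp : IsPolygon p) {t : ℝ} (h1 : (i : ℝ) ≤ t) (h2 : t ≤ i + 1) :
    PF6 p ℓ t = ⟨ℓ * ((p (i : ZMod n)).1 + (t - i) * (dir (pdir p i)).1),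
      ℓ * ((p (i : ZMod n)).2 + (t - i) * (dir (pdir p i)).2)⟩ := by
  have hst : p ((i : ZMod n) + 1) = p (i : ZMod n) + dir (pdir p i) := Enl.pdir_step hp i
  unfold PF6
  rw [pl_eq _ (i : ℤ) (by exact_mod_cast h1) (by exact_mod_cast h2)]
  apply Complex.ext
  · rw [E6.re_comb, PV6_re, PV6_re]
    push_cast
    rw [hst]
    simp only [Prod.fst_add]
    push_cast
    ring
  · rw [E6.im_comb, PV6_im, PV6_im]
    push_cast
    rw [hst]
    simp only [Prod.snd_add]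
    push_cast
    ring

theorem dist_side (hp : IsPolygon p) (hℓ : 0 < ℓ) {t t' : ℝ} (h1 : (i : ℝ) ≤ t) (h2 : t ≤ i + 1)
    (h3 : (i : ℝ) ≤ t') (h4 : t' ≤ i + 1) :
    dist (PF6 p ℓ t) (PF6 p ℓ t') = ℓ * |t - t'| := by
  rw [PF_side hp h1 h2, PF_side hp h3 h4, dist_eq_norm]
  generalize pdir p i = d
  have key : ∀ a b c : ℝ, a = b * c → 0 < b → |a| = b * |c| := by
    intro a b c h hb
    rw [h, abs_mul, abs_of_pos hb]
  fin_cases d
  · have : (⟨ℓ * ((p (i : ZMod n)).1 + (t - i) * ((dir 0).1 : ℤ)),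
        ℓ * ((p (i : ZMod n)).2 + (t - i) * ((dir 0).2 : ℤ))⟩ : ℂ) -
        ⟨ℓ * ((p (i : ZMod n)).1 + (t' - i) * ((dir 0).1 : ℤ)),
        ℓ * ((p (i : ZMod n)).2 + (t' - i) * ((dir 0).2 : ℤ))⟩ = ((ℓ * (t - t') : ℝ) : ℂ) := by
      apply Complex.ext <;> simp [dir]
      ring
    refine (congrArg norm this).trans ?_
    rw [Complex.norm_real, Real.norm_eq_abs]
    exact key _ _ _ rfl hℓ
  · have : (⟨ℓ * ((p (i : ZMod n)).1 + (t - i) * ((dir 1).1 : ℤ)),
        ℓ * ((p (i : ZMod n)).2 + (t - i) * ((dir 1).2 : ℤ))⟩ : ℂ) -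
        ⟨ℓ * ((p (i : ZMod n)).1 + (t' - i) * ((dir 1).1 : ℤ)),
        ℓ * ((p (i : ZMod n)).2 + (t' - i) * ((dir 1).2 : ℤ))⟩ =
        ((ℓ * (t - t') : ℝ) : ℂ) * Complex.I := by
      apply Complex.ext <;> simp [dir]
      ring
    refine (congrArg norm this).trans ?_
    rw [norm_mul, Complex.norm_I, mul_one, Complex.norm_real, Real.norm_eq_abs]
    exact key _ _ _ rfl hℓ
  · have : (⟨ℓ * ((p (i : ZMod n)).1 + (t - i) * ((dir 2).1 : ℤ)),
        ℓ * ((p (i : ZMod n)).2 + (t - i) * ((dir 2).2 : ℤ))⟩ : ℂ) -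
        ⟨ℓ * ((p (i : ZMod n)).1 + (t' - i) * ((dir 2).1 : ℤ)),
        ℓ * ((p (i : ZMod n)).2 + (t' - i) * ((dir 2).2 : ℤ))⟩ = -((ℓ * (t - t') : ℝ) : ℂ) := by
      apply Complex.ext <;> simp [dir]
      ring
    refine (congrArg norm this).trans ?_
    rw [norm_neg, Complex.norm_real, Real.norm_eq_abs]
    exact key _ _ _ rfl hℓ
  · have : (⟨ℓ * ((p (i : ZMod n)).1 + (t - i) * ((dir 3).1 : ℤ)),
        ℓ * ((p (i : ZMod n)).2 + (t - i) * ((dir 3).2 : ℤ))⟩ : ℂ) -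
        ⟨ℓ * ((p (i : ZMod n)).1 + (t' - i) * ((dir 3).1 : ℤ)),
        ℓ * ((p (i : ZMod n)).2 + (t' - i) * ((dir 3).2 : ℤ))⟩ =
        -(((ℓ * (t - t') : ℝ) : ℂ) * Complex.I) := by
      apply Complex.ext <;> simp [dir]
      ring
    refine (congrArg norm this).trans ?_
    rw [norm_neg, norm_mul, Complex.norm_I, mul_one, Complex.norm_real, Real.norm_eq_abs]
    exact key _ _ _ rfl hℓ

/-- A site of a refined side. -/
theorem PN_cvx {m : ℕ} {q : ZMod m → ℤ × ℤ} (hq : IsPolygon q) {N a b : ℕ} (hN : 0 < N) (hb : b < N)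
    (u : ℝ) :
    ((u / N : ℝ) : ℂ) * pt (PN q N (a * N + b)) =
      ⟨u * ((1 - b / N) * (q (a : ZMod m)).1 + (b / N) * (q ((a : ZMod m) + 1)).1),
        u * ((1 - b / N) * (q (a : ZMod m)).2 + (b / N) * (q ((a : ZMod m) + 1)).2)⟩ := by
  have hst : q ((a : ZMod m) + 1) = q (a : ZMod m) + dir (pdir q a) := Enl.pdir_step hq a
  have hNr : (N : ℝ) ≠ 0 := by positivity
  rw [Enl.PN_lin hN hb, hst]
  apply Complex.ext
  · rw [Complex.re_ofReal_mul]
    simp only [pt, Prod.fst_add, Prod.smul_fst, smul_eq_mul]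
    push_cast
    field_simp
    ring
  · rw [Complex.im_ofReal_mul]
    simp only [pt, Prod.snd_add, Prod.smul_snd, smul_eq_mul]
    push_cast
    field_simp
    ring

namespace ShD

variable (h : ShD ℓ PM e te Kd p S Bm i x P)
include h

theorem good : Vale.Agent.P153.R2.R1.Good PM := by rw [h.pm]; exact good_D6 h.hℓ h.poly h.encl

theorem goodP : Vale.Agent.P153.R2.R1.Good (emb (ℓ / 5) P) := good_D6 h.hu h.polyP h.enclP

theorem n_pos : 0 < n := by have := h.poly.1; omega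

theorem jc : JCurve (PF6 p ℓ) n := jcurve_PF6 h.hℓ h.poly

theorem fr_eq : frontier PM = range (PF6 p ℓ) := by rw [h.pm]; exact frontier_D6 h.hℓ h.poly h.encl

theorem te_near {t : ℝ} (h1 : (i : ℝ) ≤ t) (h2 : t ≤ i + 1) : dist (PF6 p ℓ t) e ≤ ℓ := by
  rw [← h.te_eq, dist_side h.poly h.hℓ h1 h2 h.te1 h.te2]
  have h3 : |t - te| ≤ 1 := by
    rw [abs_le]
    constructor <;> linarith [h.te1, h.te2]
  calc ℓ * |t - te| ≤ ℓ * 1 := mul_le_mul_of_nonneg_left h3 h.hℓ.le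
    _ = ℓ := mul_one _

/-- Connected sets which accumulate at `e` can be enlarged near `e` so that they accumulate at the tip
of the shape. -/
theorem reach {C : Set ℂ} (hC : IsPreconnected C) (hCP : C ⊆ PM) (he : e ∈ closure C) :
    ∃ C' : Set ℂ, IsPreconnected C' ∧ (∀ z ∈ C, z + tau ℓ Kd ∈ C') ∧ C' ⊆ emb (ℓ / 5) P ∧
      (∀ w ∈ C', w - tau ℓ Kd ∈ C ∨ w ∈ ball (e + tau ℓ Kd) (3 * ℓ)) ∧
      ea (ℓ / 5) P ∈ closure C' := by
  have hℓ := h.hℓ
  have hu := h.hu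
  have hune : ((ℓ / 5 : ℝ) : ℂ) ≠ 0 := Complex.ofReal_ne_zero.2 hu.ne'
  have hne : PM.Nonempty := by
    obtain ⟨z, hz⟩ := mem_closure_iff_nhdsWithin_neBot.1 he |>.nonempty_of_mem self_mem_nhdsWithin
    exact ⟨z, hCP hz⟩
  have hn3 : (3 : ℝ) ≤ n := by
    have := h.poly.1
    exact_mod_cast this
  have ht1 := h.te1
  have ht2 := h.te2
  have hmid : PF6 p ℓ (i + 1 / 2) = ((ℓ / 5 : ℝ) : ℂ) * md p i := by
    have hst : p ((i : ZMod n) + 1) = p (i : ZMod n) + dir (pdir p i) := Enl.pdir_step h.poly i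
    rw [PF_side h.poly (i := i) (by linarith) (by linarith)]
    unfold md
    rw [hst]
    apply Complex.ext
    · rw [Complex.re_ofReal_mul, Complex.re_ofReal_mul]
      simp only [pt, Complex.add_re, Prod.fst_add]
      push_cast
      ring
    · rw [Complex.im_ofReal_mul, Complex.im_ofReal_mul]
      simp only [pt, Complex.add_im, Prod.snd_add]
      push_cast
      ring
  obtain ⟨C₁, g1, g2, g3, g4, g5⟩ := H450.Out.mark_move h.good hne h.jc h.fr_eq (te := te)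
    (ta := i + 1 / 2) (by rw [abs_lt]; constructor <;> linarith) (c := e) (ρ := 3 / 2 * ℓ) (by
      intro t ht
      rw [mem_uIcc] at ht
      rw [mem_ball]
      have : dist (PF6 p ℓ t) e ≤ ℓ := by
        apply h.te_near
        · rcases ht with ht | ht <;> linarith [ht.1, ht.2]
        · rcases ht with ht | ht <;> linarith [ht.1, ht.2]
      linarith) hC hCP (by rw [h.te_eq]; exact he)
  set f : ℂ → ℂ := fun z => (z + tau ℓ Kd) / ((ℓ / 5 : ℝ) : ℂ) with hf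
  have hfc : Continuous f := by
    rw [hf]
    fun_prop
  have hmd : f (PF6 p ℓ (i + 1 / 2)) = md p i + (((Kd : ℝ) - 2 : ℝ) : ℂ) := by
    rw [hf, hmid]
    simp only [tau]
    rw [div_eq_iff hune]
    push_cast
    ring
  obtain ⟨C₂, k1, k2, k3, k4, k5⟩ := h.rch (f '' C₁) (by
    rintro _ ⟨z, hz, rfl⟩
    have h1 := g3 hz
    rw [h.pm_eq] at h1
    have h2 := (mem_int_add hu (a := (Kd : ℤ) - 2)).2 h1
    rw [← tau_eq, mem_int_div hu] at h2
    exact h2) (g2.image f hfc.continuousOn) (by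
    rw [← hmd]
    exact image_closure_subset_closure_image hfc ⟨_, g4, rfl⟩)
  refine ⟨(fun w => ((ℓ / 5 : ℝ) : ℂ) * w) '' C₂, k2.image _ (by fun_prop), ?_, ?_, ?_, ?_⟩
  · intro z hz
    refine ⟨f z, k1 ⟨z, g1 hz, rfl⟩, ?_⟩
    rw [hf]
    exact mul_div_cancel₀ _ hune
  · rintro _ ⟨w, hw, rfl⟩
    have h1 := k3 hw
    show _ ∈ interior (region (ℓ / 5) P.S)
    rw [mem_int_div hu]
    simp only
    rw [mul_div_cancel_left₀ _ hune]
    exact h1
  · rintro _ ⟨w, hw, rfl⟩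
    simp only
    rcases k4 hw with ⟨z, hz, rfl⟩ | hw2
    · have e1 : ((ℓ / 5 : ℝ) : ℂ) * f z = z + tau ℓ Kd := by
        rw [hf]
        exact mul_div_cancel₀ _ hune
      rw [e1, add_sub_cancel_right]
      rcases g5 hz with h1 | h1
      · exact Or.inl h1
      · right
        rw [mem_ball, dist_add_right]
        rw [mem_ball] at h1
        linarith
    · right
      rw [mem_ball] at hw2 ⊢
      have h1 : dist (((ℓ / 5 : ℝ) : ℂ) * w) (PF6 p ℓ (i + 1 / 2) + tau ℓ Kd) < ℓ := by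
        have e1 : PF6 p ℓ (i + 1 / 2) + tau ℓ Kd =
            ((ℓ / 5 : ℝ) : ℂ) * (md p i + (((Kd : ℝ) - 2 : ℝ) : ℂ)) := by
          rw [← hmd, hf]
          exact (mul_div_cancel₀ _ hune).symm
        rw [e1, dist_eq_norm, ← mul_sub, norm_mul, Complex.norm_real, Real.norm_of_nonneg hu.le]
        rw [dist_eq_norm] at hw2
        nlinarith
      have h2 : dist (PF6 p ℓ (i + 1 / 2) + tau ℓ Kd) (e + tau ℓ Kd) ≤ ℓ := by
        rw [dist_add_right]
        exact h.te_near (by linarith) (by linarith)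
      have := dist_triangle (((ℓ / 5 : ℝ) : ℂ) * w) (PF6 p ℓ (i + 1 / 2) + tau ℓ Kd) (e + tau ℓ Kd)
      linarith
  · rw [h.ea_eq]
    exact image_closure_subset_closure_image (by fun_prop) ⟨_, k5, rfl⟩

theorem eb_eq : eb (ℓ / 5) P = ((ℓ / 2 : ℝ) : ℂ) + tau ℓ Kd := by
  unfold eb tau
  rw [h.startP]
  apply Complex.ext
  · rw [Complex.re_ofReal_mul, Complex.add_re, Complex.add_re, Complex.ofReal_re,
      Complex.ofReal_re]
    simp [pt]
    ring
  · rw [Complex.im_ofReal_mul, Complex.add_im, Complex.add_im, Complex.ofReal_im,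
      Complex.ofReal_im]
    simp [pt]

/-- **The flat part.** -/
theorem flat {m : ℝ} (hf : ∀ z ∈ ball ((ℓ / 2 : ℝ) : ℂ) m, z ∈ PM ↔ 0 < z.im)
    (hfar : m + 3 * ℓ ≤ dist e ((ℓ / 2 : ℝ) : ℂ)) : FlatAt (emb (ℓ / 5) P) (eb (ℓ / 5) P) m := by
  intro z hz
  rw [h.eb_eq] at hz ⊢
  set w : ℂ := z - tau ℓ Kd with hw
  have hzw : z = w + tau ℓ Kd := by rw [hw]; ring
  have hτ : (tau ℓ Kd).im = 0 := by unfold tau; exact Complex.ofReal_im _
  rw [hzw, mem_ball, dist_add_right] at hz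
  have h1 : z ∈ emb (ℓ / 5) P ↔ w ∈ PM := by
    rw [hzw]
    constructor
    · intro h2
      rcases h.sup' h2 with h3 | h3
      · exact h3
      · exfalso
        have h4 := h.gf h3
        have h5 := dist_triangle_left e ((ℓ / 2 : ℝ) : ℂ) w
        linarith
    · exact h.sub
  rw [h1, hf w (mem_ball.2 hz), hzw, Complex.add_im, hτ, Complex.add_im, hτ, Complex.ofReal_im]
  simp

/-- **Boundedness.** -/
theorem bdd {w : ℂ} {R : ℝ} (hb : ∀ z ∈ PM, dist z w ≤ R) {z : ℂ} (hz : z + tau ℓ Kd ∈ emb (ℓ / 5) P) :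
    dist z w ≤ R + 3 * ℓ := by
  have hℓ := h.hℓ
  rcases h.sup' hz with h1 | h1
  · linarith [hb z h1]
  · have h2 := h.gf h1
    have h3 : e ∈ closure PM := by
      have : e ∈ frontier PM := by
        rw [h.fr_eq, ← h.te_eq]
        exact ⟨_, rfl⟩
      exact frontier_subset_closure this
    have h4 : e ∈ closedBall w R :=
      closure_minimal (fun z hz => mem_closedBall.2 (hb z hz)) isClosed_closedBall h3
    rw [mem_closedBall] at h4
    linarith [dist_triangle z e w]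

end ShD

end Vale.Agent.P167.H632G
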