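import Vale.Agent.P167.H632.G.ShE

/-!
# P167, general `q`, SAND-GEO [SHAPE]: the boundary sites of a shape and the parameter of the polygon

* `ShD.site_fr` : a site on the boundary of the shape is `PN P.q N j`;
* `ShD.arc` : the parameter of the site `PN P.q N j` on the curve of the polygon.
-/

set_option autoImplicit false

namespace Vale.Agent.P167.H632G

open Metric Set
open Vale.Agent.P153.R2.R1 (JCurve pl pl_eq)
open Vale.Agent.P167.E6 (IsPolygon Encloses dir face pt region D6 closure_D6 PF6 PV6 PV6_re PV6_im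
  jcurve_PF6 frontier_D6 good_D6 range_PF6 isOpen_D6)
open Vale.Agent.P167.H825 (enl pdir)
open Vale.Agent.P167.Enl (PN)
open Vale.Agent.P167.QT (Sh4)
open Vale.Agent.P167.H450 (sqr reg)
open Vale.Agent.P167.H450.ShpL (Gf md Reach)
open Vale.Agent.P167.H446.G (emb ea eb)

variable {n : ℕ} {p : ZMod n → ℤ × ℤ} {S Bm : Finset (ℤ × ℤ)} {i x Kd : ℕ} {P : Sh4}
  {ℓ te : ℝ} {PM : Set ℂ} {e : ℂ}

/-- A site on a side of a polygon. -/
theorem site_of_seg {m : ℕ} {q : ZMod m → ℤ × ℤ} (hq : IsPolygon q) {N : ℕ} (hN : 0 < N) {u : ℝ}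
    (hu : 0 < u) {a : ℕ} {s : ℤ × ℤ}
    (hs : ((u / N : ℝ) : ℂ) * pt s ∈ segment ℝ ((u : ℂ) * pt (q (a : ZMod m)))
      ((u : ℂ) * pt (q ((a : ZMod m) + 1)))) :
    ∃ b : ℕ, b ≤ N ∧ s = ((N : ℤ) * (q (a : ZMod m)).1 + b * (dir (pdir q a)).1,
      (N : ℤ) * (q (a : ZMod m)).2 + b * (dir (pdir q a)).2) := by
  have hst : q ((a : ZMod m) + 1) = q (a : ZMod m) + dir (pdir q a) := Enl.pdir_step hq a
  have hNr : (0 : ℝ) < N := by exact_mod_cast hN
  obtain ⟨c, d, hc, hd, hcd, h⟩ := hs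
  have hc' : c = 1 - d := by linarith
  rw [hst] at h
  have h1 := congrArg Complex.re h
  have h2 := congrArg Complex.im h
  rw [Complex.re_ofReal_mul] at h1
  rw [Complex.im_ofReal_mul] at h2
  simp only [Complex.add_re, Complex.smul_re, smul_eq_mul, Complex.re_ofReal_mul, pt, Prod.fst_add]
    at h1
  simp only [Complex.add_im, Complex.smul_im, smul_eq_mul, Complex.im_ofReal_mul, pt, Prod.snd_add]
    at h2
  push_cast at h1 h2
  have g1 : (s.1 : ℝ) = N * (q (a : ZMod m)).1 + (d * N) * (dir (pdir q a)).1 := by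
    have : u * (s.1 : ℝ) = u * (N * (q (a : ZMod m)).1 + (d * N) * (dir (pdir q a)).1) := by
      rw [hc'] at h1
      field_simp at h1
      linear_combination -u * h1
    exact mul_left_cancel₀ hu.ne' this
  have g2 : (s.2 : ℝ) = N * (q (a : ZMod m)).2 + (d * N) * (dir (pdir q a)).2 := by
    have : u * (s.2 : ℝ) = u * (N * (q (a : ZMod m)).2 + (d * N) * (dir (pdir q a)).2) := by
      rw [hc'] at h2
      field_simp at h2
      linear_combination -u * h2
    exact mul_left_cancel₀ hu.ne' this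
  -- `d N` is an integer
  obtain ⟨b, hb⟩ : ∃ b : ℤ, (b : ℝ) = d * N := by
    revert g1 g2
    generalize pdir q a = r
    intro g1 g2
    fin_cases r
    · exact ⟨s.1 - N * (q (a : ZMod m)).1, by simp [dir] at g1; push_cast; linarith⟩
    · exact ⟨s.2 - N * (q (a : ZMod m)).2, by simp [dir] at g2; push_cast; linarith⟩
    · exact ⟨-(s.1 - N * (q (a : ZMod m)).1), by simp [dir] at g1; push_cast; linarith⟩
    · exact ⟨-(s.2 - N * (q (a : ZMod m)).2), by simp [dir] at g2; push_cast; linarith⟩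
  have hb0 : 0 ≤ b := by
    have : (0 : ℝ) ≤ b := by rw [hb]; positivity
    exact_mod_cast this
  have hbN : b ≤ N := by
    have : (b : ℝ) ≤ N := by
      rw [hb]
      calc d * N ≤ 1 * N := mul_le_mul_of_nonneg_right (by linarith) hNr.le
        _ = N := one_mul _
    exact_mod_cast this
  refine ⟨b.toNat, by omega, ?_⟩
  have hbt : ((b.toNat : ℕ) : ℤ) = b := Int.toNat_of_nonneg hb0
  rw [hbt]
  apply Prod.ext
  · rw [← hb] at g1
    exact_mod_cast g1
  · rw [← hb] at g2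
    exact_mod_cast g2

/-- A boundary site is `PN q N j`. -/
theorem site_PN {m : ℕ} {q : ZMod m → ℤ × ℤ} (hq : IsPolygon q) {N : ℕ} (hN : 0 < N) {u : ℝ}
    (hu : 0 < u) {s : ℤ × ℤ} (hs : ((u / N : ℝ) : ℂ) * pt s ∈ range (PF6 q u)) :
    ∃ j : ℕ, j < m * N ∧ PN q N j = s := by
  have hm : m ≠ 0 := by have := hq.1; omega
  have : NeZero m := ⟨hm⟩
  rw [range_PF6 hm] at hs
  obtain ⟨a', ha'⟩ := mem_iUnion.1 hs
  set a : ℕ := a'.val with ha
  have hav : (a : ZMod m) = a' := ZMod.natCast_zmod_val a'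
  rw [← hav] at ha'
  obtain ⟨b, hbN, hsb⟩ := site_of_seg hq hN hu ha'
  have hPN : PN q N (a * N + b) = s := by
    rcases hbN.lt_or_eq with h | h
    · rw [Enl.PN_lin hN h, hsb]
      apply Prod.ext <;> simp
    · rw [h, show a * N + N = (a + 1) * N + 0 by ring, Enl.PN_lin hN hN]
      push_cast
      rw [Enl.pdir_step hq a, hsb, h]
      apply Prod.ext <;> simp
  have hmN : 0 < m * N := by positivity
  refine ⟨(a * N + b) % (m * N), Nat.mod_lt _ hmN, ?_⟩
  rw [Enl.PN_mod hN]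
  exact hPN

namespace ShD

variable (h : ShD ℓ PM e te Kd p S Bm i x P)
include h

theorem m_pos : 0 < P.m := by have := h.polyP.1; omega

/-- **Boundary sites.** -/
theorem site_fr {N : ℕ} (hN : 0 < N) {s : ℤ × ℤ}
    (hs : ((ℓ / 5 / N : ℝ) : ℂ) * pt s ∈ frontier (emb (ℓ / 5) P)) :
    ∃ j : ℕ, N ≤ 2 * j ∧ 2 * j < (2 * P.m + 1) * N ∧ PN P.q N j = s := by
  have e1 : frontier (emb (ℓ / 5) P) = range (PF6 P.q (ℓ / 5)) :=
    frontier_D6 h.hu h.polyP h.enclP
  rw [e1] at hs
  obtain ⟨j, hj, hjs⟩ := site_PN h.polyP hN h.hu hs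
  have hm := h.polyP.1
  have h3 : 3 * N ≤ P.m * N := Nat.mul_le_mul_right _ (by omega)
  have h4 : (2 * P.m + 1) * N = 2 * (P.m * N) + N := by ring
  by_cases hc : N ≤ 2 * j
  · exact ⟨j, hc, by omega, hjs⟩
  · refine ⟨j + P.m * N, by omega, by omega, ?_⟩
    rw [Enl.PN_add_l hN]
    exact hjs

/-- The vertices after the bump, one step beyond the end. -/
theorem q2' {j : ℕ} (h1 : 5 * i + 1 ≤ j) (h2 : j ≤ 5 * n + 1) :
    P.q (j + x : ℕ) = PN p 5 (j + 2) + ((Kd : ℤ) - 2, 0) := by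
  rcases Nat.lt_or_ge (5 * n) j with h3 | h3
  · have e : j = 5 * n + 1 := by omega
    have e1 : ((j + x : ℕ) : ZMod P.m) = ((1 : ℕ) : ZMod P.m) := by
      rw [e, show 5 * n + 1 + x = 5 * n + x + 1 by ring, ← h.m_eq]
      push_cast
      rw [ZMod.natCast_self, zero_add]
    rw [e1, h.q1 1 (by have := h.i1; omega), e]
    congr 1
    rw [show 5 * n + 1 + 2 = 5 * n + 3 by ring, PN_per]
  · exact h.q2 j h1 h3

/-- The position of a site from the coordinates of two refined vertices. -/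
theorem pos_of {N a b a' : ℕ} (hN : 0 < N) (hb : b < N)
    (ha : P.q (a : ZMod P.m) = PN p 5 a' + ((Kd : ℤ) - 2, 0))
    (ha1 : b = 0 ∨ P.q ((a : ZMod P.m) + 1) = PN p 5 (a' + 1) + ((Kd : ℤ) - 2, 0)) :
    PF6 p ℓ (((a' : ℝ) + b / N) / 5) + tau ℓ Kd =
      ((ℓ / 5 / N : ℝ) : ℂ) * pt (PN P.q N (a * N + b)) := by
  have hNr : (0 : ℝ) < N := by exact_mod_cast hN
  have hf0 : (0 : ℝ) ≤ (b : ℝ) / N := by positivity
  have hf1 : (b : ℝ) / N ≤ 1 := by
    rw [div_le_one hNr]
    exact_mod_cast hb.le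
  have e0 : PF6 p ℓ (((a' : ℝ) + b / N) / 5) = PF6 p (5 * (ℓ / 5)) (((a' : ℝ) + b / N) / 5) := by
    rw [show 5 * (ℓ / 5) = ℓ by ring]
  rw [e0, PF_PN h.poly _ _ hf0 hf1, PN_cvx h.polyP hN hb]
  unfold tau
  rcases ha1 with hb0 | ha1
  · rw [hb0, ha]
    apply Complex.ext
    · rw [Complex.add_re, Complex.ofReal_re]
      simp only [Prod.fst_add]
      push_cast
      ring
    · rw [Complex.add_im, Complex.ofReal_im]
      simp only [Prod.snd_add]
      push_cast
      ring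
  · rw [ha, ha1]
    apply Complex.ext
    · rw [Complex.add_re, Complex.ofReal_re]
      simp only [Prod.fst_add]
      push_cast
      ring
    · rw [Complex.add_im, Complex.ofReal_im]
      simp only [Prod.snd_add]
      push_cast
      ring

/-- A site in the block of the bump. -/
theorem blk_near {N a b : ℕ} (hN : 0 < N) (hb : b < N) (h1 : 5 * i ≤ a) (h2 : a ≤ 5 * i + x) :
    dist (((ℓ / 5 / N : ℝ) : ℂ) * pt (PN P.q N (a * N + b))) (e + tau ℓ Kd) ≤ 3 * ℓ := by
  obtain ⟨a1, a2, a3, a4⟩ := h.q3 a h1 (by omega)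
  obtain ⟨b1, b2, b3, b4⟩ := h.q3 (a + 1) (by omega) (by omega)
  push_cast at b1 b2 b3 b4
  have hu := h.hu
  have hNr : (0 : ℝ) < N := by exact_mod_cast hN
  have hf0 : (0 : ℝ) ≤ (b : ℝ) / N := by positivity
  have hf1 : (b : ℝ) / N ≤ 1 := by
    rw [div_le_one hNr]
    exact_mod_cast hb.le
  have c1 : (5 : ℝ) * (Gf p i).1 + ((Kd : ℝ) - 2) ≤ (P.q a).1 := by exact_mod_cast a1
  have c2 : ((P.q a).1 : ℝ) ≤ 5 * (Gf p i).1 + 5 + ((Kd : ℝ) - 2) := by exact_mod_cast a2
  have c3 : (5 : ℝ) * (Gf p i).2 ≤ (P.q a).2 := by exact_mod_cast a3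
  have c4 : ((P.q a).2 : ℝ) ≤ 5 * (Gf p i).2 + 5 := by exact_mod_cast a4
  have d1 : (5 : ℝ) * (Gf p i).1 + ((Kd : ℝ) - 2) ≤ (P.q ((a : ZMod P.m) + 1)).1 := by
    exact_mod_cast b1
  have d2 : ((P.q ((a : ZMod P.m) + 1)).1 : ℝ) ≤ 5 * (Gf p i).1 + 5 + ((Kd : ℝ) - 2) := by
    exact_mod_cast b2
  have d3 : (5 : ℝ) * (Gf p i).2 ≤ (P.q ((a : ZMod P.m) + 1)).2 := by exact_mod_cast b3
  have d4 : ((P.q ((a : ZMod P.m) + 1)).2 : ℝ) ≤ 5 * (Gf p i).2 + 5 := by exact_mod_cast b4
  set z : ℂ := ((ℓ / 5 / N : ℝ) : ℂ) * pt (PN P.q N (a * N + b)) with hz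
  have key : z - tau ℓ Kd ∈ sqr ℓ (Gf p i) := by
    have cvx : ∀ {f X Y L : ℝ}, 0 ≤ f → f ≤ 1 → L ≤ X → L ≤ Y → L ≤ (1 - f) * X + f * Y := by
      intro f X Y L g1 g2 g3 g4
      nlinarith
    have cvx' : ∀ {f X Y L : ℝ}, 0 ≤ f → f ≤ 1 → X ≤ L → Y ≤ L → (1 - f) * X + f * Y ≤ L := by
      intro f X Y L g1 g2 g3 g4
      nlinarith
    have hre : (z - tau ℓ Kd).re = ℓ / 5 * ((1 - b / N) * (P.q (a : ZMod P.m)).1 +
        (b / N) * (P.q ((a : ZMod P.m) + 1)).1) - ((Kd : ℝ) - 2) * (ℓ / 5) := by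
      rw [hz, PN_cvx h.polyP hN hb, tau, Complex.sub_re, Complex.ofReal_re]
    have him : (z - tau ℓ Kd).im = ℓ / 5 * ((1 - b / N) * (P.q (a : ZMod P.m)).2 +
        (b / N) * (P.q ((a : ZMod P.m) + 1)).2) := by
      rw [hz, PN_cvx h.polyP hN hb, tau, Complex.sub_im, Complex.ofReal_im, sub_zero]
    have e1 := cvx hf0 hf1 c1 d1
    have e2 := cvx' hf0 hf1 c2 d2
    have e3 := cvx hf0 hf1 c3 d3
    have e4 := cvx' hf0 hf1 c4 d4
    refine ⟨?_, ?_, ?_, ?_⟩
    · rw [hre]
      have := mul_le_mul_of_nonneg_left e1 hu.le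
      linarith
    · rw [hre]
      have := mul_le_mul_of_nonneg_left e2 hu.le
      linarith
    · rw [him]
      have := mul_le_mul_of_nonneg_left e3 hu.le
      linarith
    · rw [him]
      have := mul_le_mul_of_nonneg_left e4 hu.le
      linarith
  have := h.gf key
  rwa [← dist_add_right _ _ (tau ℓ Kd), sub_add_cancel] at this

/-- **The parameter of a boundary site.** -/
theorem arc {N j : ℕ} (hN : 0 < N) (h1 : N ≤ 2 * j) (h2 : 2 * j < (2 * P.m + 1) * N) :
    dist (((ℓ / 5 / N : ℝ) : ℂ) * pt (PN P.q N j)) (e + tau ℓ Kd) ≤ 3 * ℓ ∨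
      ∃ t : ℝ, 1 / 2 ≤ t ∧ t < n + 1 / 2 ∧
        PF6 p ℓ t + tau ℓ Kd = ((ℓ / 5 / N : ℝ) : ℂ) * pt (PN P.q N j) ∧
        ((t < te ∧ j ≤ P.k * N) ∨ (te < t ∧ (P.k + 1) * N ≤ j)) := by
  have hℓ := h.hℓ
  have hNr : (0 : ℝ) < N := by exact_mod_cast hN
  have hj := Nat.div_add_mod' j N
  have hb := Nat.mod_lt j hN
  set a := j / N with ha
  set b := j % N with hb'
  have hjr : (j : ℝ) = a * N + b := by rw [← hj]; push_cast; ring
  have hf0 : (0 : ℝ) ≤ (b : ℝ) / N := by positivity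
  have hf1 : (b : ℝ) / N < 1 := by
    rw [div_lt_one hNr]
    exact_mod_cast hb
  have hlo : (1 : ℝ) / 2 ≤ a + b / N := by
    have g1 : (N : ℝ) ≤ 2 * (a * N + b) := by rw [← hjr]; exact_mod_cast h1
    rw [← sub_nonneg]
    have : (a : ℝ) + b / N - 1 / 2 = (2 * (a * N + b) - N) / (2 * N) := by
      field_simp
    rw [this]
    exact div_nonneg (by linarith) (by positivity)
  have hhi : (a : ℝ) + b / N < P.m + 1 / 2 := by
    have g1 : (2 : ℝ) * (a * N + b) < (2 * P.m + 1) * N := by rw [← hjr]; exact_mod_cast h2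
    rw [← sub_pos]
    have : (P.m : ℝ) + 1 / 2 - (a + b / N) = ((2 * P.m + 1) * N - 2 * (a * N + b)) / (2 * N) := by
      field_simp
    rw [this]
    exact div_pos (by linarith) (by positivity)
  have hk1 := h.k1
  have hk2 := h.k2
  have hte1 := h.te1
  have hte2 := h.te2
  have hi2 : (i : ℝ) + 1 ≤ n := by exact_mod_cast h.i2
  have hjeq : j = a * N + b := hj.symm
  by_cases hA : a < 5 * i ∨ (a = 5 * i ∧ b = 0)
  · -- before the bump
    have hle : (a : ℝ) + b / N ≤ 5 * i := by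
      rcases hA with hA | ⟨hA, hB⟩
      · have : (a : ℝ) + 1 ≤ 5 * i := by exact_mod_cast hA
        linarith
      · rw [hA, hB]
        push_cast
        simp
    have hpos := h.pos_of (a := a) (b := b) (a' := a + 2) hN hb (h.q1 a (by omega)) (by
      rcases hA with hA | ⟨-, hB⟩
      · right
        have := h.q1 (a + 1) (by omega)
        push_cast at this
        exact this
      · exact Or.inl hB)
    rw [← hjeq] at hpos
    set t : ℝ := (((a + 2 : ℕ) : ℝ) + b / N) / 5 with ht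
    have ht' : t = (a + b / N + 2) / 5 := by rw [ht]; push_cast; ring
    have hti : t ≤ i + 2 / 5 := by rw [ht']; linarith
    by_cases hlt : t < te
    · right
      refine ⟨t, by rw [ht']; linarith, by linarith, hpos, Or.inl ⟨hlt, ?_⟩⟩
      rw [hjeq]
      rcases hA with hA | ⟨hA, hB⟩
      · calc a * N + b ≤ a * N + N := by omega
          _ = (a + 1) * N := by ring
          _ ≤ P.k * N := Nat.mul_le_mul_right _ (by omega)
      · rw [hB, add_zero]
        exact Nat.mul_le_mul_right _ (by omega)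
    · left
      push Not at hlt
      rw [← hpos, dist_add_right]
      have := h.te_near (t := t) (by linarith) (by linarith)
      linarith
  · by_cases hB : a ≤ 5 * i + x
    · left
      rw [hjeq]
      exact h.blk_near hN hb (by omega) hB
    · push Not at hB
      have hm := h.m_eq
      have ham : a ≤ P.m := by
        have g1 : (a : ℝ) < P.m + 1 := by linarith
        have g2 : a < P.m + 1 := by exact_mod_cast g1
        omega
      obtain ⟨c, hc⟩ : ∃ c, a = c + x := ⟨a - x, by omega⟩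
      have hpos := h.pos_of (a := a) (b := b) (a' := c + 2) hN hb (by
        rw [hc]
        exact h.q2' (by omega) (by omega)) (by
        rcases Nat.lt_or_ge (5 * n) c with hc2 | hc2
        · omega
        · right
          have := h.q2' (j := c + 1) (by omega) (by omega)
          rw [show c + 1 + x = a + 1 by omega] at this
          push_cast at this
          exact this)
      rw [← hjeq] at hpos
      set t : ℝ := (((c + 2 : ℕ) : ℝ) + b / N) / 5 with ht
      have hcr : (a : ℝ) = c + x := by exact_mod_cast hc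
      have hmr : (P.m : ℝ) = 5 * n + x := by exact_mod_cast hm
      have ht' : t = (c + b / N + 2) / 5 := by rw [ht]; push_cast; ring
      have hc3 : (5 * i + 1 : ℝ) ≤ c := by
        have : 5 * i + 1 ≤ c := by omega
        exact_mod_cast this
      have hti : (i : ℝ) + 3 / 5 ≤ t := by rw [ht']; linarith
      by_cases hlt : te < t
      · right
        refine ⟨t, by rw [ht']; linarith, by rw [ht']; linarith, hpos, Or.inr ⟨hlt, ?_⟩⟩
        rw [hjeq]
        calc (P.k + 1) * N ≤ a * N := Nat.mul_le_mul_right _ (by omega)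
          _ ≤ a * N + b := by omega
      · left
        push Not at hlt
        rw [← hpos, dist_add_right]
        have := h.te_near (t := t) (by linarith) (by linarith)
        linarith

end ShD

end Vale.Agent.P167.H632G
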