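import Vale.Agent.P167.H632.G.ShF
import Vale.Agent.P167.H450.OutQ

/-!
# P167, general `q`, SAND-GEO [SHAPE]: existence

`exists_shape` : the outer polygon `Pm (5 u) U` with the mark `e` gives a shape of the family `Fam`.
-/

set_option autoImplicit false

namespace Vale.Agent.P167.H632G

open Metric Set
open Vale.Agent.P153.R2.R1 (JCurve per_int)
open Vale.Agent.P167.E6 (IsPolygon Encloses dir face pt region D6 closure_D6 PF6 PV6 PV6_re PV6_im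
  jcurve_PF6 frontier_D6 good_D6 range_PF6 isOpen_D6)
open Vale.Agent.P167.H825 (enl pdir dirOf)
open Vale.Agent.P167.Enl (PN)
open Vale.Agent.P167.QT (Sh4)
open Vale.Agent.P167.H450 (sqr reg)
open Vale.Agent.P167.H450.ShpL (Gf md Reach)
open Vale.Agent.P167.H450.Out (OD Pm)
open Vale.Agent.P167.H446.G (emb ea eb Fam Ku le_Ku Ku_le lt_Ku Ku_mono)

/-- The outer polygon is the domain of a lattice polygon. -/
theorem pm_polygon {ℓ r : ℝ} {D U : Set ℂ} (H : OD ℓ r D U) :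
    ∃ (S : Finset (ℤ × ℤ)) (n : ℕ) (p : ZMod n → ℤ × ℤ), Pm ℓ U = D6 ℓ S ∧ IsPolygon p ∧
      Encloses p S := by
  obtain ⟨S, n, p, hS, hp, hE⟩ := H.exists_polygon
  refine ⟨S, n, p, ?_, hp, hE⟩
  rw [Pm, ← hS]
  rfl

/-- Rotation of the indices so that the side `0` is the side from `(0, 0)` to `(1, 0)`. -/
theorem rot_side {n : ℕ} {p : ZMod n → ℤ × ℤ} {S : Finset (ℤ × ℤ)} (hp : IsPolygon p)
    (hS : Encloses p S) (h0 : ((0 : ℤ), (0 : ℤ)) ∈ S) (h1 : ((0 : ℤ), (-1 : ℤ)) ∉ S) :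
    ∃ p' : ZMod n → ℤ × ℤ, IsPolygon p' ∧ Encloses p' S ∧ p' 0 = (0, 0) ∧ p' 1 = (1, 0) := by
  obtain ⟨a, ha1, ha2⟩ := (hS (0, 0) 0).2 ⟨by rw [Enl.face0]; exact h0, by
    have e : (0 : Fin 4) - 1 = 3 := rfl
    rw [e, Enl.face3]
    simpa using h1⟩
  refine ⟨fun y => p (y + a), ?_, ?_, ?_, ?_⟩
  · have := poly_shift hp a 0
    simpa using this
  · have := encl_shift hS a 0
    simpa using this
  · show p (0 + a) = _
    rw [zero_add]
    exact ha1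
  · show p (1 + a) = _
    rw [add_comm, ha2]
    simp [dir]

/-- A boundary point of a polygon has a parameter in `[0, n)`. -/
theorem exists_te {n : ℕ} {p : ZMod n → ℤ × ℤ} {ℓ : ℝ} (hn : 0 < n) {e : ℂ}
    (he : e ∈ range (PF6 p ℓ)) : ∃ (i : ℕ) (te : ℝ), i < n ∧ (i : ℝ) ≤ te ∧ te ≤ i + 1 ∧
      PF6 p ℓ te = e := by
  obtain ⟨t, rfl⟩ := he
  have hnr : (0 : ℝ) < n := by exact_mod_cast hn
  set te : ℝ := t + ((-⌊t / n⌋ : ℤ) : ℝ) * n with hte
  have h1 : 0 ≤ te := by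
    have := Int.floor_le (t / n)
    rw [le_div_iff₀ hnr] at this
    rw [hte]
    push_cast
    linarith
  have h2 : te < n := by
    have := Int.lt_floor_add_one (t / n)
    rw [div_lt_iff₀ hnr] at this
    rw [hte]
    push_cast
    linarith
  refine ⟨⌊te⌋₊, te, ?_, Nat.floor_le h1, (Nat.lt_floor_add_one te).le, ?_⟩
  · rw [Nat.floor_lt h1]
    exact h2
  · rw [hte]
    exact per_int E6.PF6_per _ _

/-- The conditions on the numbers. -/
structure Num (Ld Lc m B s u Rb : ℝ) : Prop where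
  hs : 0 < s
  hsm : 100 * s ≤ m
  hs1 : s ≤ 1
  hu1 : u ≤ s
  hu2 : s ≤ 2 * u
  hm : m ≤ Ld
  hd : Ld + 2 * m ≤ Lc
  hRb : 0 ≤ Rb
  hB : 2 * Rb + Ld + 100 ≤ B

section

variable {Ld Lc m B s u Rb : ℝ} (hN : Num Ld Lc m B s u Rb)
include hN

theorem Num.u_pos : 0 < u := by have := hN.hs; have := hN.hu2; linarith

theorem Num.m_pos : 0 < m := by have := hN.hs; have := hN.hsm; linarith

theorem Num.Ld_pos : 0 < Ld := hN.m_pos.trans_le hN.hm

theorem Num.Lc_pos : 0 < Lc := by have := hN.m_pos; have := hN.Ld_pos; have := hN.hd; linarith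

/-- The flat box of faces. -/
theorem exists_WH : ∃ W Hh : ℕ, 5 * u * W ≤ Lc + 3 / 2 * m ∧ 5 * u * Hh ≤ 3 / 2 * m ∧
    Ku Lc s + Ku m s + 5 ≤ 5 * W ∧ Ku m s + 5 ≤ 5 * Hh := by
  have hs := hN.hs
  have hsm := hN.hsm
  have hu1 := hN.hu1
  have hu := hN.u_pos
  have hm := hN.m_pos
  have hLc := hN.Lc_pos
  have hℓ : 0 < 5 * u := by positivity
  have k2 : (Ku Lc s : ℝ) * s ≤ Lc := Ku_le hLc.le hs
  have k3 : (Ku m s : ℝ) * s ≤ m := Ku_le hm.le hs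
  set W : ℕ := ⌊(Lc + 3 / 2 * m) / (5 * u)⌋₊ with hW
  set Hh : ℕ := ⌊(3 / 2 * m) / (5 * u)⌋₊ with hHh
  have hW1 := Nat.floor_le (show 0 ≤ (Lc + 3 / 2 * m) / (5 * u) by positivity)
  rw [le_div_iff₀ hℓ] at hW1
  have hH1 := Nat.floor_le (show 0 ≤ (3 / 2 * m) / (5 * u) by positivity)
  rw [le_div_iff₀ hℓ] at hH1
  have hW2 := Nat.lt_floor_add_one ((Lc + 3 / 2 * m) / (5 * u))
  rw [div_lt_iff₀ hℓ] at hW2
  have hH2 := Nat.lt_floor_add_one ((3 / 2 * m) / (5 * u))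
  rw [div_lt_iff₀ hℓ] at hH2
  rw [← hW] at hW1 hW2
  rw [← hHh] at hH1 hH2
  have hWs : Lc + 3 / 2 * m < ((W : ℝ) + 1) * (5 * s) :=
    hW2.trans_le (mul_le_mul_of_nonneg_left (by linarith) (by positivity))
  have hHs : 3 / 2 * m < ((Hh : ℝ) + 1) * (5 * s) :=
    hH2.trans_le (mul_le_mul_of_nonneg_left (by linarith) (by positivity))
  refine ⟨W, Hh, by linarith, by linarith, ?_, ?_⟩
  · have : ((Ku Lc s + Ku m s + 5 : ℕ) : ℝ) * s < (5 * W : ℕ) * s := by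
      push_cast
      linarith
    have h2 := lt_of_mul_lt_mul_right this hs.le
    have h3 : Ku Lc s + Ku m s + 5 < 5 * W := by exact_mod_cast h2
    omega
  · have : ((Ku m s + 5 : ℕ) : ℝ) * s < (5 * Hh : ℕ) * s := by
      push_cast
      linarith
    have h2 := lt_of_mul_lt_mul_right this hs.le
    have h3 : Ku m s + 5 < 5 * Hh := by exact_mod_cast h2
    omega

theorem num_K : 1 ≤ Ku m s ∧ Ku Ld s + Ku m s ≤ Ku Lc s ∧ Ku m s ≤ Ku Ld s := by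
  have hs := hN.hs
  have hsm := hN.hsm
  have hm := hN.m_pos
  have hLd := hN.Ld_pos
  have hd := hN.hd
  have k1 : (Ku Ld s : ℝ) * s ≤ Ld := Ku_le hLd.le hs
  have k3 : (Ku m s : ℝ) * s ≤ m := Ku_le hm.le hs
  have k4 : Lc - s < (Ku Lc s : ℝ) * s := lt_Ku hs
  refine ⟨le_Ku hs (by push_cast; linarith), ?_, Ku_mono hs hN.hm⟩
  have : ((Ku Ld s + Ku m s : ℕ) : ℝ) * s < (Ku Lc s : ℕ) * s := by
    push_cast
    linarith
  have h2 := lt_of_mul_lt_mul_right this hs.le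
  have h3 : Ku Ld s + Ku m s < Ku Lc s := by exact_mod_cast h2
  omega

/-- The faces of the flat box. -/
theorem faces_of {PM : Set ℂ} {S : Finset (ℤ × ℤ)} (hpm : PM = D6 (5 * u) S) {W Hh : ℕ}
    (hW : 5 * u * W ≤ Lc + 3 / 2 * m) (hH : 5 * u * Hh ≤ 3 / 2 * m)
    (hfl : ∀ z : ℂ, -(Lc + 2 * m) < z.re → z.re < 2 * m → |z.im| < 2 * m → (z ∈ PM ↔ 0 < z.im))
    (v : ℤ × ℤ) (h1 : -(W : ℤ) ≤ v.1) (h2 : v.1 < 1) (h3 : -(Hh : ℤ) ≤ v.2) (h4 : v.2 < Hh) :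
    v ∈ S ↔ 0 ≤ v.2 := by
  have hs := hN.hs
  have hsm := hN.hsm
  have hu1 := hN.hu1
  have hu := hN.u_pos
  have hm := hN.m_pos
  have hℓ : 0 < 5 * u := by positivity
  have h1' : -(W : ℝ) ≤ v.1 := by exact_mod_cast h1
  have h2' : (v.1 : ℝ) ≤ 0 := by
    have : v.1 ≤ 0 := by omega
    exact_mod_cast this
  have h3' : -(Hh : ℝ) ≤ v.2 := by exact_mod_cast h3
  have h4' : (v.2 : ℝ) + 1 ≤ Hh := by exact_mod_cast h4
  have g1 : 5 * u * -(W : ℝ) ≤ 5 * u * v.1 := mul_le_mul_of_nonneg_left h1' hℓ.le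
  have g2 : 5 * u * (v.1 : ℝ) ≤ 5 * u * 0 := mul_le_mul_of_nonneg_left h2' hℓ.le
  have g3 : 5 * u * -(Hh : ℝ) ≤ 5 * u * v.2 := mul_le_mul_of_nonneg_left h3' hℓ.le
  have g4 : 5 * u * ((v.2 : ℝ) + 1) ≤ 5 * u * Hh := mul_le_mul_of_nonneg_left h4' hℓ.le
  rw [← face_iff hℓ v, ← hpm, hfl]
  · show 0 < 5 * u * ((v.2 : ℝ) + 1 / 2) ↔ _
    constructor
    · intro h
      have h5 : 0 < (v.2 : ℝ) + 1 / 2 := (mul_pos_iff_of_pos_left hℓ).1 h
      have h6 : (-1 : ℝ) < v.2 := by linarith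
      have h7 : -1 < v.2 := by exact_mod_cast h6
      omega
    · intro h
      have h5 : (0 : ℝ) ≤ v.2 := by exact_mod_cast h
      positivity
  · show -(Lc + 2 * m) < 5 * u * ((v.1 : ℝ) + 1 / 2)
    linarith
  · show 5 * u * ((v.1 : ℝ) + 1 / 2) < 2 * m
    linarith
  · show |5 * u * ((v.2 : ℝ) + 1 / 2)| < 2 * m
    rw [abs_lt]
    constructor <;> linarith

/-- The outside face of the side of the mark is not in the flat box. -/
theorem out_of {n : ℕ} {p : ZMod n → ℤ × ℤ} (hp : IsPolygon p) {W Hh i : ℕ} {te : ℝ} {e : ℂ}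
    (hW : 5 * u * W ≤ Lc + 3 / 2 * m) (hH : 5 * u * Hh ≤ 3 / 2 * m)
    (heb : ¬ (-(Lc + 2 * m) < e.re ∧ e.re < 2 * m ∧ |e.im| < 2 * m)) (te1 : (i : ℝ) ≤ te)
    (te2 : te ≤ i + 1) (hte : PF6 p (5 * u) te = e) :
    ¬ (-(W : ℤ) ≤ (Gf p i).1 ∧ (Gf p i).1 < 1 ∧ -(Hh : ℤ) ≤ (Gf p i).2 ∧ (Gf p i).2 < Hh) := by
  rintro ⟨h1, h2, h3, h4⟩
  apply heb
  have hs := hN.hs
  have hsm := hN.hsm
  have hu1 := hN.hu1
  have hu := hN.u_pos
  have hm := hN.m_pos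
  have hℓ : 0 < 5 * u := by positivity
  have hmem := side_sub_Gf hp hℓ te1 te2
  rw [hte] at hmem
  obtain ⟨g1, g2, g3, g4⟩ := hmem
  have h1' : -(W : ℝ) ≤ (Gf p i).1 := by exact_mod_cast h1
  have h2' : ((Gf p i).1 : ℝ) ≤ 0 := by
    have : (Gf p i).1 ≤ 0 := by omega
    exact_mod_cast this
  have h3' : -(Hh : ℝ) ≤ (Gf p i).2 := by exact_mod_cast h3
  have h4' : ((Gf p i).2 : ℝ) + 1 ≤ Hh := by exact_mod_cast h4
  have a1 : 5 * u * -(W : ℝ) ≤ 5 * u * (Gf p i).1 := mul_le_mul_of_nonneg_left h1' hℓ.le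
  have a2 : 5 * u * ((Gf p i).1 : ℝ) ≤ 5 * u * 0 := mul_le_mul_of_nonneg_left h2' hℓ.le
  have a3 : 5 * u * -(Hh : ℝ) ≤ 5 * u * (Gf p i).2 := mul_le_mul_of_nonneg_left h3' hℓ.le
  have a4 : 5 * u * (((Gf p i).2 : ℝ) + 1) ≤ 5 * u * Hh := mul_le_mul_of_nonneg_left h4' hℓ.le
  refine ⟨by linarith, by linarith, ?_⟩
  rw [abs_lt]
  constructor <;> linarith

/-- The bounds. -/
theorem bound_of {PM : Set ℂ} {n : ℕ} {p : ZMod n → ℤ × ℤ} (hn : n ≠ 0)
    (hfr : frontier PM = range (PF6 p (5 * u))) (hB : ∀ z ∈ PM, |z.re| ≤ Rb ∧ |z.im| ≤ Rb)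
    (j : ZMod n) : 5 * |(p j).1| + (Ku Ld s : ℤ) + 10 ≤ (Ku B s : ℤ) ∧
      5 * |(p j).2| + 10 ≤ (Ku B s : ℤ) := by
  have hs := hN.hs
  have hs1 := hN.hs1
  have hu2 := hN.hu2
  have hBB := hN.hB
  have hu := hN.u_pos
  have hLd := hN.Ld_pos
  have hℓ : 0 < 5 * u := by positivity
  have hcl : (((5 * u : ℝ) : ℂ) * pt (p j)) ∈ closure PM := by
    apply frontier_subset_closure
    rw [hfr, range_PF6 hn]
    exact mem_iUnion.2 ⟨j, left_mem_segment ℝ _ _⟩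
  have hbox : closure PM ⊆ {z : ℂ | |z.re| ≤ Rb ∧ |z.im| ≤ Rb} := by
    refine closure_minimal (fun z hz => hB z hz) ?_
    exact (isClosed_le (continuous_abs.comp Complex.continuous_re) continuous_const).inter
      (isClosed_le (continuous_abs.comp Complex.continuous_im) continuous_const)
  obtain ⟨b1, b2⟩ := hbox hcl
  rw [Complex.re_ofReal_mul, abs_mul, abs_of_pos hℓ] at b1
  rw [Complex.im_ofReal_mul, abs_mul, abs_of_pos hℓ] at b2
  have e1 : |(pt (p j)).re| = ((|(p j).1| : ℤ) : ℝ) := by simp [pt]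
  have e2 : |(pt (p j)).im| = ((|(p j).2| : ℤ) : ℝ) := by simp [pt]
  rw [e1] at b1
  rw [e2] at b2
  have key : ∀ (a : ℤ) (c : ℕ), 0 ≤ a → 5 * u * (a : ℝ) ≤ Rb → (c : ℝ) * s ≤ Ld →
      5 * a + (c : ℤ) + 10 ≤ (Ku B s : ℤ) := by
    intro a c ha h1 hc
    obtain ⟨a', rfl⟩ : ∃ a' : ℕ, a = a' := ⟨a.toNat, (Int.toNat_of_nonneg ha).symm⟩
    have h2 : 5 * a' + c + 10 ≤ Ku B s := by
      refine le_Ku hs ?_
      push_cast at h1 ⊢
      have h3 : (5 * (a' : ℝ)) * s ≤ 2 * Rb := by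
        calc (5 * (a' : ℝ)) * s ≤ (5 * (a' : ℝ)) * (2 * u) :=
              mul_le_mul_of_nonneg_left hu2 (by positivity)
          _ = 2 * (5 * u * a') := by ring
          _ ≤ 2 * Rb := by linarith
      linarith
    exact_mod_cast h2
  refine ⟨key _ _ (abs_nonneg _) b1 (Ku_le hLd.le hs), ?_⟩
  have := key _ 0 (abs_nonneg _) b2 (by simpa using hLd.le)
  push_cast at this
  linarith

/-- **The shape.** -/
theorem exists_shape {r : ℝ} {D U : Set ℂ} (H : OD (5 * u) r D U)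
    (hfl : ∀ z : ℂ, -(Lc + 2 * m) < z.re → z.re < 2 * m → |z.im| < 2 * m →
      (z ∈ Pm (5 * u) U ↔ 0 < z.im))
    (hB : ∀ z ∈ Pm (5 * u) U, |z.re| ≤ Rb ∧ |z.im| ≤ Rb) {e : ℂ} (he : e ∈ frontier (Pm (5 * u) U))
    (heb : ¬ (-(Lc + 2 * m) < e.re ∧ e.re < 2 * m ∧ |e.im| < 2 * m)) :
    ∃ (n : ℕ) (p : ZMod n → ℤ × ℤ) (S Bm : Finset (ℤ × ℤ)) (i x : ℕ) (P : Sh4) (te : ℝ),
      P ∈ Fam Ld Lc m B s ∧ ShD (5 * u) (Pm (5 * u) U) e te (Ku Ld s) p S Bm i x P := by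
  have hu := hN.u_pos
  have hℓ : 0 < 5 * u := by positivity
  obtain ⟨S, n, p', hpm, hp', hS'⟩ := pm_polygon H
  obtain ⟨W, Hh, hW, hH, c1, c2⟩ := exists_WH hN
  obtain ⟨c3, c4, c5⟩ := num_K hN
  have hface := faces_of hN hpm hW hH hfl
  have hH0 : 0 < Hh := by omega
  -- the side of the target
  have f0 : ((0 : ℤ), (0 : ℤ)) ∈ S :=
    (hface (0, 0) (by simp) (by simp) (by simp) (by simpa using hH0)).2 le_rfl
  have f1 : ((0 : ℤ), (-1 : ℤ)) ∉ S := fun h => by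
    have := (hface (0, -1) (by simp) (by simp) (by simp; omega) (by simp; omega)).1 h
    simp at this
  obtain ⟨p, hp, hS, p0, p1⟩ := rot_side hp' hS' f0 f1
  have hn : 0 < n := by have := hp.1; omega
  -- the side of the mark
  have hfr : frontier (Pm (5 * u) U) = range (PF6 p (5 * u)) := by
    rw [hpm]; exact frontier_D6 hℓ hp hS
  obtain ⟨i, te, hi, te1, te2, hte⟩ := exists_te hn (by rw [← hfr]; exact he)
  have hG := out_of hN hp hW hH heb te1 te2 hte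
  have hi1 : 1 ≤ i := by
    by_contra hcon
    have hi0 : i = 0 := by omega
    apply hG
    have e1 : pdir p 0 = 0 := by
      unfold pdir
      rw [Nat.cast_zero, zero_add, p1, p0]
      rfl
    have e2 : Gf p i = (0, -1) := by
      unfold Gf
      rw [hi0, e1, Nat.cast_zero, p0]
      rfl
    rw [e2]
    refine ⟨by simp, by simp, ?_, ?_⟩
    · simp only
      omega
    · simp only
      omega
  obtain ⟨P, Bm, x, hOk, hm1, hl1, hj1, hb1, hPS, hBm, g1, g2, g3, g4, g5, g6⟩ :=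
    s_shape W Hh (Ku Ld s) (Ku Lc s) (Ku m s) (Ku B s) i hp hS p0 p1 hface c1 c2 c3 c4 c5
      (bound_of hN hn.ne' hfr hB) hi1 hi hG
  refine ⟨n, p, S, Bm, i, x, P, te, ⟨hOk, hl1, hj1, hb1⟩, ?_⟩
  exact
    { hℓ := hℓ
      poly := hp
      encl := hS
      p0 := p0
      p1 := p1
      pm := hpm
      i1 := hi1
      i2 := hi
      te1 := te1
      te2 := te2
      te_eq := hte
      polyP := hOk.poly
      enclP := hOk.encl
      tipP := hOk.tip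
      startP := by
        have h1 := hOk.line P.m (by have := hOk.l_lt; have := hOk.j_lt; omega) (by omega)
        rw [ZMod.natCast_self] at h1
        rw [h1]
        apply Prod.ext
        · show (P.m : ℤ) - P.l = (Ku Ld s : ℤ)
          omega
        · rfl
      m_eq := hm1
      S_eq := hPS
      Bm_sub := hBm
      k1 := g1
      k2 := g2
      q1 := g3
      q2 := g4
      q3 := g5
      rch := g6 }

end

end Vale.Agent.P167.H632G
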