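import Vale.Agent.P167.H632.G.ShE

/-!
# P167, general `q`, SAND-GEO [SHAPE]: the tip of the shape, 756's form
-/

set_option autoImplicit false

namespace Vale.Agent.P167.H632G

open Metric Set
open Vale.Agent.P167.QT (Sh4)
open Vale.Agent.P167.H446.G (emb ea eb)

/-- 756's `Rch`. -/
theorem ShD.rch6 {n : ℕ} {p : ZMod n → ℤ × ℤ} {S Bm : Finset (ℤ × ℤ)} {i x Kd : ℕ} {P : Sh4}
    {ℓ te : ℝ} {PM : Set ℂ} {e : ℂ} (h : ShD ℓ PM e te Kd p S Bm i x P) :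
    ∀ C ⊆ PM, IsPreconnected C → e ∈ closure C → ∃ C' ⊆ emb (ℓ / 5) P, IsPreconnected C' ∧
      (∀ z ∈ C, z + tau ℓ Kd ∈ C') ∧
      (∀ z ∈ C', z - tau ℓ Kd ∈ C ∨ dist (z - tau ℓ Kd) e ≤ 6 * ℓ) ∧
      ea (ℓ / 5) P ∈ closure C' := by
  intro C hC hc he
  obtain ⟨C', g1, g2, g3, g4, g5⟩ := h.reach hc hC he
  refine ⟨C', g3, g1, g2, fun z hz => ?_, g5⟩
  rcases g4 z hz with h1 | h1
  · exact Or.inl h1
  · right
    rw [mem_ball] at h1
    have e1 : dist (z - tau ℓ Kd) e = dist z (e + tau ℓ Kd) := by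
      rw [dist_eq_norm, dist_eq_norm]
      congr 1
      ring
    rw [e1]
    have := h.hℓ
    linarith

end Vale.Agent.P167.H632G
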