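import Vale.Agent.P167.H632.G.ShG
import Vale.Agent.P167.H446.G.Line
import Vale.Agent.P167.H446.G.Lit2
import Vale.Agent.P167.SG.Cls2

/-!
# P167, general `q`, SAND-GEO [SHAPE]: the shape from the flat box `Bf`

* `pm_bound` : the outer polygon is bounded;
* `shape_in` : the shape for the constants `C : Cst`;
* `bdd_frame` : the domains are bounded in the frames;
* `v1_b` : the target in the frame `v1`.
-/

set_option autoImplicit false

namespace Vale.Agent.P167.H632G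

open Metric Set Filter Topology
open Vale.Agent.P153.R2.L1 (HH)
open Vale.Agent.P153.R2.R1 (DC FC good_DC)
open Vale.Agent.P167.E6 (pt PF6)
open Vale.Agent.P167.QT (Sh4)
open Vale.Agent.P167.SLE (bq)
open Vale.Agent.P167.H411 (Set6)
open Vale.Agent.P167.H450.Out (OD Pm frontier_Pm isOpen_Pm)
open Vale.Agent.P167.H446.G (Cst Ku vd rt psr emb eb Fam dl_pos Nn_le lt_Nn rt_pt psr_b
  tendsto_b)
open Vale.Agent.P167.H756 (FlatAt)
open Vale.Agent.P167.SG (Bf)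

/-- The outer polygon is bounded. -/
theorem pm_bound {ℓ r : ℝ} {D U : Set ℂ} (H : OD ℓ r D U) {c : ℂ} {R : ℝ}
    (hU : ∀ u ∈ U, ‖u - c‖ ≤ R) {z : ℂ} (hz : z ∈ Pm ℓ U) : ‖z - c‖ ≤ R + 3 * ℓ := by
  have hℓ := H.hℓ
  by_contra hcon
  push Not at hcon
  have hR : 0 ≤ R := by
    obtain ⟨u, hu⟩ := H.ne
    exact (norm_nonneg _).trans (hU u hu)
  have hpos : 0 < ‖z - c‖ := by linarith
  set A : Set ℂ := (fun t : ℝ => c + (t : ℂ) * (z - c)) '' Ici 1 with hA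
  have hAc : IsPreconnected A := isPreconnected_Ici.image _ (by fun_prop)
  have h1 : (A ∩ Pm ℓ U).Nonempty := ⟨z, ⟨1, mem_Ici.2 le_rfl, by simp⟩, hz⟩
  obtain ⟨R', hR'⟩ := H.isBounded_Pm.subset_closedBall c
  have h2 : (A ∩ (Pm ℓ U)ᶜ).Nonempty := by
    refine ⟨c + ((max 1 ((|R'| + 1) / ‖z - c‖) : ℝ) : ℂ) * (z - c), ⟨_, mem_Ici.2 (le_max_left _ _), rfl⟩, ?_⟩
    intro hmem
    have h3 := hR' hmem
    rw [mem_closedBall, dist_eq_norm, add_sub_cancel_left, norm_mul, Complex.norm_real,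
      Real.norm_of_nonneg (le_trans zero_le_one (le_max_left _ _))] at h3
    have h4 : (|R'| + 1) / ‖z - c‖ * ‖z - c‖ ≤ max 1 ((|R'| + 1) / ‖z - c‖) * ‖z - c‖ :=
      mul_le_mul_of_nonneg_right (le_max_right _ _) hpos.le
    rw [div_mul_cancel₀ _ hpos.ne'] at h4
    linarith [le_abs_self R']
  obtain ⟨y, ⟨t, ht, rfl⟩, hy⟩ : ∃ y, y ∈ A ∧ y ∈ frontier (Pm ℓ U) := by
    by_contra hno
    push Not at hno
    obtain ⟨w, hw1, hw2⟩ := h2
    exact hw2 (Vale.Agent.P153.R2.R1.subset_of_frontier isOpen_Pm hAc h1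
      (Set.disjoint_left.2 fun x hx hx' => hno x hx hx') hw1)
  obtain ⟨⟨F, ⟨u, hu, huU⟩, hF⟩, -⟩ := frontier_Pm hℓ hy
  have h5 := H450.dist_le_of_bk (H450.sqr_subset_bk hℓ hF) hu
  have h6 := hU u huU
  have ht' : (1 : ℝ) ≤ t := ht
  have h7 : ‖z - c‖ ≤ ‖c + (t : ℂ) * (z - c) - c‖ := by
    rw [add_sub_cancel_left, norm_mul, Complex.norm_real, Real.norm_of_nonneg (by linarith)]
    nlinarith
  have h8 : ‖c + (t : ℂ) * (z - c) - c‖ ≤ dist (c + (t : ℂ) * (z - c)) u + ‖u - c‖ := by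
    rw [dist_eq_norm]
    calc ‖c + (t : ℂ) * (z - c) - c‖ = ‖(c + (t : ℂ) * (z - c) - u) + (u - c)‖ := by
          congr 1; ring
      _ ≤ _ := norm_add_le _ _
  linarith

/-- **The shape, from the flat box.** -/
theorem shape_in {C : Cst} {rc Rm s δ r : ℝ} {D U : Set ℂ} (hSm : C.Sm (rc / 8))
    (hs : 0 < s) (hsm : 100 * s ≤ C.m) (hs1 : s ≤ 1) (hδ : 0 < δ) (hδs : 8 * H446.G.dl δ ≤ s)
    (hRm : 0 ≤ Rm) (hB : 2 * Rm + C.Ld + 200 ≤ C.B) (H : OD (5 * (H446.G.dl δ * H446.G.Nn s δ)) r D U)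
    (hfl : ∀ z ∈ Bf (5 * (H446.G.dl δ * H446.G.Nn s δ) / 2) (rc / 2),
      (z ∈ Pm (5 * (H446.G.dl δ * H446.G.Nn s δ)) U ↔ 0 < z.im))
    (hU : ∀ u ∈ U, ‖u - ((5 * (H446.G.dl δ * H446.G.Nn s δ) / 2 : ℝ) : ℂ)‖ ≤ Rm) {e : ℂ}
    (he : e ∈ frontier (Pm (5 * (H446.G.dl δ * H446.G.Nn s δ)) U))
    (heb : e ∉ Bf (5 * (H446.G.dl δ * H446.G.Nn s δ) / 2) (rc / 4)) :
    ∃ (n : ℕ) (p : ZMod n → ℤ × ℤ) (S Bm : Finset (ℤ × ℤ)) (i x : ℕ) (P : Sh4) (te : ℝ),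
      P ∈ Fam C.Ld C.Lc C.m C.B s ∧
      ShD (5 * (H446.G.dl δ * H446.G.Nn s δ)) (Pm (5 * (H446.G.dl δ * H446.G.Nn s δ)) U) e te (Ku C.Ld s) p S Bm i x P ∧
      FlatAt (emb (H446.G.dl δ * H446.G.Nn s δ) P) (eb (H446.G.dl δ * H446.G.Nn s δ) P) C.m := by
  have hd := dl_pos hδ
  set u : ℝ := H446.G.dl δ * H446.G.Nn s δ with hu
  have hus : u ≤ s := Nn_le hs hδ
  have hsu : s - 4 * H446.G.dl δ < u := lt_Nn hδ
  have hu0 : 0 < u := by linarith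
  have m0 := hSm.m_pos
  have m1 := hSm.m_Ld
  have m2 := hSm.Ld_Lc
  have m3 := hSm.Lc_le
  have hN : Num C.Ld C.Lc C.m C.B s u (Rm + 4 * (5 * u)) :=
    { hs := hs, hsm := hsm, hs1 := hs1, hu1 := hus, hu2 := by linarith, hm := by linarith
      hd := by linarith, hRb := by linarith, hB := by linarith }
  obtain ⟨n, p, S, Bm, i, x, P, te, hP, h⟩ := exists_shape hN H (by
    intro z h1 h2 h3
    refine hfl z ⟨?_, by linarith⟩
    rw [abs_lt]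
    constructor <;> linarith) (by
    intro z hz
    have h1 := pm_bound H hU hz
    have h2 : ‖z‖ ≤ Rm + 4 * (5 * u) := by
      have h3 : ‖z‖ ≤ ‖z - ((5 * u / 2 : ℝ) : ℂ)‖ + ‖((5 * u / 2 : ℝ) : ℂ)‖ := by
        calc ‖z‖ = ‖(z - ((5 * u / 2 : ℝ) : ℂ)) + ((5 * u / 2 : ℝ) : ℂ)‖ := by
              congr 1; ring
          _ ≤ _ := norm_add_le _ _
      rw [Complex.norm_real, Real.norm_of_nonneg (by positivity)] at h3
      linarith
    exact ⟨(Complex.abs_re_le_norm z).trans h2, (Complex.abs_im_le_norm z).trans h2⟩) he (by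
    rintro ⟨h1, h2, h3⟩
    apply heb
    refine ⟨?_, by linarith⟩
    rw [abs_lt]
    constructor <;> linarith)
  refine ⟨n, p, S, Bm, i, x, P, te, hP, h, ?_⟩
  have h1 := h.flat (m := C.m) (by
    intro z hz
    refine hfl z ?_
    rw [mem_ball, dist_eq_norm] at hz
    have g1 := Complex.abs_re_le_norm (z - ((5 * u / 2 : ℝ) : ℂ))
    have g2 := Complex.abs_im_le_norm (z - ((5 * u / 2 : ℝ) : ℂ))
    rw [Complex.sub_re, Complex.ofReal_re] at g1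
    rw [Complex.sub_im, Complex.ofReal_im, sub_zero] at g2
    exact ⟨by linarith, by linarith⟩) (by
    by_contra hcon
    push Not at hcon
    rw [dist_eq_norm] at hcon
    have g1 := Complex.abs_re_le_norm (e - ((5 * u / 2 : ℝ) : ℂ))
    have g2 := Complex.abs_im_le_norm (e - ((5 * u / 2 : ℝ) : ℂ))
    rw [Complex.sub_re, Complex.ofReal_re] at g1
    rw [Complex.sub_im, Complex.ofReal_im, sub_zero] at g2
    exact heb ⟨by linarith, by linarith⟩)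
  rw [show 5 * u / 5 = u by ring] at h1
  exact h1

section

variable {Φ : (ℝ × ℝ) ≃ₜ (ℝ × ℝ)} {ψ : ℂ → ℂ} {δ : ℕ → ℝ} {N k : ℕ → ℕ}
  {p : ∀ n, ZMod (N n) → ℤ × ℤ} {S : ℕ → Finset (ℤ × ℤ)} {ψn : ℕ → ℂ → ℂ}

/-- **The domains are bounded in the frames.** -/
theorem bdd_frame (H : Set6 Φ ψ δ N k p S ψn) : ∃ Rm : ℝ, 0 < Rm ∧ ∀ᶠ n in atTop,
    ∀ (v₀ : ℤ × ℤ) (z : ℂ), 0 ≤ z.im → ‖psr (δ n) v₀ (ψn n) z -
      (rt * ((δ n : ℂ) * pt (p n (k n))) + -((H446.G.dl (δ n) : ℂ) * pt v₀))‖ ≤ Rm := by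
  have hb := tendsto_b H.appr
  obtain ⟨R, hR⟩ := (good_DC Φ).bdd.closure.subset_closedBall 0
  have hU := (Vale.Agent.P153.R2.R1.isUniformizer_iff Φ ψ).1 H.unif
  refine ⟨|R| + ‖bq Φ‖ + 3, by positivity, ?_⟩
  filter_upwards [H.conv 1 one_pos, Metric.tendsto_nhds.1 hb 1 one_pos] with n h1 h2
  intro v₀ z hz
  have h3 := h1 z hz
  have e : psr (δ n) v₀ (ψn n) z - (rt * ((δ n : ℂ) * pt (p n (k n))) +
      -((H446.G.dl (δ n) : ℂ) * pt v₀)) = rt * (ψn n z - (δ n : ℂ) * pt (p n (k n))) := by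
    unfold psr
    ring
  rw [e, norm_mul, H446.G.norm_rt, one_mul]
  have h4 : ψ z ∈ closedBall (0 : ℂ) R := by
    apply hR
    have hcl : z ∈ closure {w : ℂ | 0 < w.im} := by
      rw [Complex.closure_setOfPred_lt_im]
      exact hz
    have hc : ContinuousWithinAt ψ {w : ℂ | 0 < w.im} z :=
      (hU.cont z hz).mono fun w hw => le_of_lt (show (0 : ℝ) < w.im from hw)
    have h5 := hc.mem_closure_image hcl
    rw [hU.img] at h5
    exact h5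
  rw [mem_closedBall_zero_iff] at h4
  rw [dist_eq_norm] at h2 h3
  have h6 : ‖ψn n z - (δ n : ℂ) * pt (p n (k n))‖ ≤ ‖ψn n z - ψ z‖ + ‖ψ z‖ + ‖bq Φ‖ +
      ‖(δ n : ℂ) * pt (p n (k n)) - bq Φ‖ := by
    calc ‖ψn n z - (δ n : ℂ) * pt (p n (k n))‖ = ‖(ψn n z - ψ z) + ψ z - bq Φ -
          ((δ n : ℂ) * pt (p n (k n)) - bq Φ)‖ := by congr 1; ring
      _ ≤ _ := by
          refine (norm_sub_le _ _).trans ?_
          refine add_le_add ?_ le_rfl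
          refine (norm_sub_le _ _).trans ?_
          exact add_le_add (norm_add_le _ _) le_rfl
  linarith [le_abs_self R]

end

/-- The target in the frame `v1`. -/
theorem v1_b {n : ℕ} (p : ZMod n → ℤ × ℤ) (k : ℕ) (L s δ : ℝ) :
    rt * ((δ : ℂ) * pt (p k)) + -((H446.G.dl δ : ℂ) * pt (((vd p k L s δ).1 +
      ((Ku L s : ℤ) - 2) * H446.G.Nn s δ, (vd p k L s δ).2) : ℤ × ℤ)) =
      ((5 * (H446.G.dl δ * H446.G.Nn s δ) / 2 : ℝ) : ℂ) := by
  have h := psr_b p k L s δ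
  have e : ((H446.G.dl δ : ℂ) * pt (((vd p k L s δ).1 + ((Ku L s : ℤ) - 2) * H446.G.Nn s δ,
      (vd p k L s δ).2) : ℤ × ℤ)) = (H446.G.dl δ : ℂ) * pt (vd p k L s δ) +
      ((H446.G.dl δ * (((Ku L s : ℝ) - 2) * H446.G.Nn s δ) : ℝ) : ℂ) := by
    apply Complex.ext
    · rw [Complex.add_re, Complex.re_ofReal_mul, Complex.re_ofReal_mul, Complex.ofReal_re]
      simp only [pt]
      push_cast
      ring
    · rw [Complex.add_im, Complex.im_ofReal_mul, Complex.im_ofReal_mul, Complex.ofReal_im]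
      simp only [pt, add_zero]
  rw [e, neg_add, ← add_assoc, h]
  push_cast
  ring

end Vale.Agent.P167.H632G
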