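import Vale.Agent.P167.H632.G.ShD
import Vale.Agent.P167.H506.SHP.Dom
import Vale.Agent.P167.H397.K.Frm

/-!
# P167, general `q`, SAND-GEO [SHAPE]: the open set of the shape in the original plane

`PmU δ v N P` (frame `v`) and the outer polygon `PM` (frame `v₁ = v + ((Kd - 2) N, 0)`).
-/

set_option autoImplicit false

namespace Vale.Agent.P167.H632G

open Metric Set Filter Topology
open Vale.Agent.P167.E6 (pt PF6)
open Vale.Agent.P167.H450 (sqr)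
open Vale.Agent.P167.QT (Sh4)
open Vale.Agent.P167.H450.Out (OD Pm frontier_Pm isOpen_Pm)
open Vale.Agent.P167.H446.G (rt psr emb ea)
open Vale.Agent.P167.H397.K (frm frmH frmH_eq)
open Vale.Agent.P167.H506.SHP (PmU)
open Vale.Agent.P167.H450.ShpL (Gf)

/-- The frames `v` and `v₁`. -/
theorem frm_tau (δ : ℝ) (v : ℤ × ℤ) (N Kd : ℕ) (w : ℂ) :
    frm δ v w = frm δ (v.1 + ((Kd : ℤ) - 2) * N, v.2) w + tau (5 * (H446.G.dl δ * N)) Kd := by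
  have e : ((H446.G.dl δ : ℂ) * pt ((v.1 + ((Kd : ℤ) - 2) * N, v.2) : ℤ × ℤ)) =
      (H446.G.dl δ : ℂ) * pt v + ((H446.G.dl δ * (((Kd : ℝ) - 2) * N) : ℝ) : ℂ) := by
    apply Complex.ext
    · rw [Complex.add_re, Complex.re_ofReal_mul, Complex.re_ofReal_mul, Complex.ofReal_re]
      simp only [pt]
      push_cast
      ring
    · rw [Complex.add_im, Complex.im_ofReal_mul, Complex.im_ofReal_mul, Complex.ofReal_im]
      simp only [pt, add_zero]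
  unfold frm tau
  rw [e]
  push_cast
  ring

theorem mem_PmU {δ : ℝ} {v : ℤ × ℤ} {N : ℕ} {P : Sh4} {w : ℂ} :
    w ∈ PmU δ v N P ↔ frm δ v w ∈ emb (H446.G.dl δ * N) P := Iff.rfl

theorem PmU_pre (δ : ℝ) (v : ℤ × ℤ) (N : ℕ) (P : Sh4) :
    PmU δ v N P = frmH δ v ⁻¹' emb (H446.G.dl δ * N) P := rfl

theorem cl_PmU {δ : ℝ} {v : ℤ × ℤ} {N : ℕ} {P : Sh4} {w : ℂ} :
    w ∈ closure (PmU δ v N P) ↔ frm δ v w ∈ closure (emb (H446.G.dl δ * N) P) := by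
  rw [PmU_pre, ← (frmH δ v).preimage_closure]
  rfl

theorem fr_PmU {δ : ℝ} {v : ℤ × ℤ} {N : ℕ} {P : Sh4} {w : ℂ} :
    w ∈ frontier (PmU δ v N P) ↔ frm δ v w ∈ frontier (emb (H446.G.dl δ * N) P) := by
  rw [PmU_pre, ← (frmH δ v).preimage_frontier]
  rfl

/-- A point of the frontier of the outer polygon is near `U`. -/
theorem fr_near {ℓ : ℝ} (hℓ : 0 < ℓ) {U : Set ℂ} {y : ℂ} (hy : y ∈ frontier (Pm ℓ U)) :
    ∃ u ∈ U, dist y u ≤ 3 * ℓ := by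
  obtain ⟨⟨F, ⟨u, hu, huU⟩, hF⟩, -⟩ := frontier_Pm hℓ hy
  exact ⟨u, huU, H450.dist_le_of_bk (H450.sqr_subset_bk hℓ hF) hu⟩

section

variable {δ : ℝ} {v : ℤ × ℤ} {N Kd : ℕ} {PM : Set ℂ} {e : ℂ} {te : ℝ} {n : ℕ} {p : ZMod n → ℤ × ℤ}
  {S Bm : Finset (ℤ × ℤ)} {i x : ℕ} {P : Sh4} {w : ℂ}

theorem ShD.pmu_sub (h : ShD (5 * (H446.G.dl δ * N)) PM e te Kd p S Bm i x P)
    (hw : frm δ (v.1 + ((Kd : ℤ) - 2) * N, v.2) w ∈ PM) : w ∈ PmU δ v N P := by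
  rw [mem_PmU, frm_tau δ v N Kd w]
  have := h.sub hw
  rwa [show 5 * (H446.G.dl δ * N) / 5 = H446.G.dl δ * N by ring] at this

theorem ShD.pmu_sup (h : ShD (5 * (H446.G.dl δ * N)) PM e te Kd p S Bm i x P)
    (hw : w ∈ PmU δ v N P) : frm δ (v.1 + ((Kd : ℤ) - 2) * N, v.2) w ∈ PM ∨
      frm δ (v.1 + ((Kd : ℤ) - 2) * N, v.2) w ∈ sqr (5 * (H446.G.dl δ * N)) (Gf p i) := by
  rw [mem_PmU, frm_tau δ v N Kd w] at hw
  refine h.sup' ?_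
  rwa [show 5 * (H446.G.dl δ * N) / 5 = H446.G.dl δ * N by ring]

theorem ShD.pmu_cl (h : ShD (5 * (H446.G.dl δ * N)) PM e te Kd p S Bm i x P)
    (hw : w ∈ closure (PmU δ v N P)) : frm δ (v.1 + ((Kd : ℤ) - 2) * N, v.2) w ∈ closure PM ∨
      frm δ (v.1 + ((Kd : ℤ) - 2) * N, v.2) w ∈ sqr (5 * (H446.G.dl δ * N)) (Gf p i) := by
  rw [cl_PmU, frm_tau δ v N Kd w] at hw
  refine h.sup ?_
  rwa [show 5 * (H446.G.dl δ * N) / 5 = H446.G.dl δ * N by ring]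

theorem ShD.pmu_fr (h : ShD (5 * (H446.G.dl δ * N)) PM e te Kd p S Bm i x P)
    (hw : w ∈ frontier (PmU δ v N P)) : frm δ (v.1 + ((Kd : ℤ) - 2) * N, v.2) w ∈ frontier PM ∨
      frm δ (v.1 + ((Kd : ℤ) - 2) * N, v.2) w ∈ sqr (5 * (H446.G.dl δ * N)) (Gf p i) := by
  rw [fr_PmU, frm_tau δ v N Kd w] at hw
  refine h.fr ?_
  rwa [show 5 * (H446.G.dl δ * N) / 5 = H446.G.dl δ * N by ring]

/-- A point of the closure of the shape is in the closure of the outer polygon or near the mark. -/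
theorem ShD.pmu_cl' (h : ShD (5 * (H446.G.dl δ * N)) PM e te Kd p S Bm i x P)
    (hw : w ∈ closure (PmU δ v N P)) : frm δ (v.1 + ((Kd : ℤ) - 2) * N, v.2) w ∈ closure PM ∨
      dist (frm δ (v.1 + ((Kd : ℤ) - 2) * N, v.2) w) e ≤ 3 * (5 * (H446.G.dl δ * N)) :=
  (h.pmu_cl hw).imp_right h.gf

theorem ShD.pmu_fr' (h : ShD (5 * (H446.G.dl δ * N)) PM e te Kd p S Bm i x P)
    (hw : w ∈ frontier (PmU δ v N P)) : frm δ (v.1 + ((Kd : ℤ) - 2) * N, v.2) w ∈ frontier PM ∨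
      dist (frm δ (v.1 + ((Kd : ℤ) - 2) * N, v.2) w) e ≤ 3 * (5 * (H446.G.dl δ * N)) :=
  (h.pmu_fr hw).imp_right h.gf

/-- ... or near `U`. -/
theorem ShD.pmu_clU {U : Set ℂ}
    (h : ShD (5 * (H446.G.dl δ * N)) (Pm (5 * (H446.G.dl δ * N)) U) e te Kd p S Bm i x P)
    (he : e ∈ frontier (Pm (5 * (H446.G.dl δ * N)) U)) (hw : w ∈ closure (PmU δ v N P)) :
    frm δ (v.1 + ((Kd : ℤ) - 2) * N, v.2) w ∈ closure (Pm (5 * (H446.G.dl δ * N)) U) ∨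
      ∃ u ∈ U, dist (frm δ (v.1 + ((Kd : ℤ) - 2) * N, v.2) w) u ≤ 6 * (5 * (H446.G.dl δ * N)) := by
  refine (h.pmu_cl' hw).imp_right fun h1 => ?_
  obtain ⟨u, hu, h2⟩ := fr_near h.hℓ he
  exact ⟨u, hu, (dist_triangle _ e _).trans (by linarith)⟩

theorem ShD.pmu_frU {U : Set ℂ}
    (h : ShD (5 * (H446.G.dl δ * N)) (Pm (5 * (H446.G.dl δ * N)) U) e te Kd p S Bm i x P)
    (he : e ∈ frontier (Pm (5 * (H446.G.dl δ * N)) U)) (hw : w ∈ frontier (PmU δ v N P)) :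
    ∃ u ∈ U, dist (frm δ (v.1 + ((Kd : ℤ) - 2) * N, v.2) w) u ≤ 6 * (5 * (H446.G.dl δ * N)) := by
  have hℓ := h.hℓ
  rcases h.pmu_fr' hw with h1 | h1
  · obtain ⟨u, hu, h2⟩ := fr_near h.hℓ h1
    exact ⟨u, hu, h2.trans (by linarith)⟩
  · obtain ⟨u, hu, h2⟩ := fr_near h.hℓ he
    exact ⟨u, hu, (dist_triangle _ e _).trans (by linarith)⟩

/-- Outside of the shape: outside of the outer polygon. -/
theorem ShD.pmu_not (h : ShD (5 * (H446.G.dl δ * N)) PM e te Kd p S Bm i x P)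
    (hw : w ∉ PmU δ v N P) : frm δ (v.1 + ((Kd : ℤ) - 2) * N, v.2) w ∉ PM :=
  fun h1 => hw (h.pmu_sub h1)

end

end Vale.Agent.P167.H632G
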