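import Vale.Agent.P167.H632.G.Gad

/-!
# P167, general `q`, SAND-GEO [SHP-LAT]: the shape from the coarse polygon and the gadget (indices)
-/

set_option autoImplicit false

namespace Vale.Agent.P167.H632G

open Metric Set
open Vale.Agent.P167.E6 (IsPolygon Encloses dir face pt region)
open Vale.Agent.P167.H825 (enl pdir dirOf)
open Vale.Agent.P167.Enl (PN qN face0 face1 face2 face3)

variable {n : ℕ} {p : ZMod n → ℤ × ℤ} {S : Finset (ℤ × ℤ)}

/-- The flat line before the vertex `0`. -/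
theorem line_of {W H : ℕ} (hp : IsPolygon p) (hS : Encloses p S) (h0 : p 0 = (0, 0))
    (hH : 0 < H)
    (hf : ∀ v : ℤ × ℤ, -(W : ℤ) ≤ v.1 → v.1 < 1 → -(H : ℤ) ≤ v.2 → v.2 < H → (v ∈ S ↔ 0 ≤ v.2))
    (t : ℕ) (ht : t ≤ W) : p (-(t : ZMod n)) = (-(t : ℤ), 0) := by
  induction t with
  | zero => simpa using h0
  | succ t ih =>
    have h1 := ih (by omega)
    -- the edge from `(-(t + 1), 0)` to `(-t, 0)`
    have h2 := (hS (-((t : ℤ) + 1), 0) 0).2 ⟨by
      rw [face0]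
      exact (hf _ (by simp; omega) (by simp; omega) (by simp) (by simp; omega)).2 le_rfl, by
      have e : (0 : Fin 4) - 1 = 3 := rfl
      rw [e, face3]
      intro h
      have := (hf _ (by simp; omega) (by simp; omega) (by simp; omega) (by simp; omega)).1 h
      simp at this⟩
    obtain ⟨x, hx1, hx2⟩ := h2
    have e2 : ((-((t : ℤ) + 1), 0) : ℤ × ℤ) + dir 0 = (-(t : ℤ), 0) := by
      simp [dir]
    rw [e2, ← h1] at hx2
    have h3 := hp.2.1 hx2
    have h4 : x = -((t + 1 : ℕ) : ZMod n) := by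
      push_cast
      rw [neg_add, ← h3]
      ring
    rw [← h4, hx1]
    push_cast
    rfl

theorem dirOf_zero : dirOf (1, 0) = 0 := rfl

/-- The outside face of the tip side is not in the flat box, so the tip side is far from the flat
line. -/
theorem tip_lt {W H i : ℕ} (hp : IsPolygon p) (hS : Encloses p S) (h0 : p 0 = (0, 0))
    (hH : 0 < H)
    (hf : ∀ v : ℤ × ℤ, -(W : ℤ) ≤ v.1 → v.1 < 1 → -(H : ℤ) ≤ v.2 → v.2 < H → (v ∈ S ↔ 0 ≤ v.2))
    (hi : i < n)
    (hG : ¬ (-(W : ℤ) ≤ (face (p (i : ℕ)) (pdir p i - 1)).1 ∧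
      (face (p (i : ℕ)) (pdir p i - 1)).1 < 1 ∧ -(H : ℤ) ≤ (face (p (i : ℕ)) (pdir p i - 1)).2 ∧
      (face (p (i : ℕ)) (pdir p i - 1)).2 < H)) : i + W < n := by
  by_contra hcon
  obtain ⟨t, ht⟩ : ∃ t, n = i + (t + 1) := ⟨n - i - 1, by omega⟩
  have e1 : ((i : ℕ) : ZMod n) = -((t + 1 : ℕ) : ZMod n) := by
    have h : ((i + (t + 1) : ℕ) : ZMod n) = 0 := by rw [← ht, ZMod.natCast_self]
    push_cast at h ⊢
    linear_combination h
  have e2 : ((i : ℕ) : ZMod n) + 1 = -((t : ℕ) : ZMod n) := by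
    rw [e1]
    push_cast
    ring
  have h1 := line_of hp hS h0 hH hf (t + 1) (by omega)
  have h2 := line_of hp hS h0 hH hf t (by omega)
  have h3 : pdir p i = 0 := by
    unfold pdir
    rw [e2, e1, h2, h1]
    have : ((-(t : ℤ), 0) : ℤ × ℤ) - (-((t + 1 : ℕ) : ℤ), 0) = (1, 0) := by
      apply Prod.ext
      · simp
      · simp
    rw [this]
    rfl
  apply hG
  rw [h3, e1, h1]
  have e4 : (0 : Fin 4) - 1 = 3 := rfl
  rw [e4, face3]
  simp only
  push_cast
  omega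

/-- The line in the refined polygon. -/
theorem line5 {W H : ℕ} (hp : IsPolygon p) (hS : Encloses p S) (h0 : p 0 = (0, 0)) (hH : 0 < H)
    (hf : ∀ v : ℤ × ℤ, -(W : ℤ) ≤ v.1 → v.1 < 1 → -(H : ℤ) ≤ v.2 → v.2 < H → (v ∈ S ↔ 0 ≤ v.2))
    (hW : W < n) {s y : ℕ} (hs : s ≤ 5 * W) (hy : y + s = 5 * n) : PN p 5 y = (-(s : ℤ), 0) := by
  obtain ⟨t, r, hr, h1⟩ : ∃ t r, r < 5 ∧ s + r = 5 * t := ⟨(s + 4) / 5, 5 * ((s + 4) / 5) - s,
    by omega, by omega⟩
  have ht : t ≤ W := by omega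
  have hy' : y = 5 * (n - t) + r := by omega
  have e1 : ((n - t : ℕ) : ZMod n) = -((t : ℕ) : ZMod n) := by
    rw [Nat.cast_sub (by omega), ZMod.natCast_self, zero_sub]
  rw [hy', PN_lin5 hr, e1, line_of hp hS h0 hH hf t ht]
  rcases Nat.eq_zero_or_pos r with h2 | h2
  · subst h2
    apply Prod.ext
    · simp; omega
    · simp
  · obtain ⟨t', rfl⟩ : ∃ t', t = t' + 1 := ⟨t - 1, by omega⟩
    have h3 : pdir p (n - (t' + 1)) = 0 := by
      unfold pdir
      rw [e1]
      have e2 : -((t' + 1 : ℕ) : ZMod n) + 1 = -((t' : ℕ) : ZMod n) := by push_cast; ring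
      rw [e2, line_of hp hS h0 hH hf t' (by omega), line_of hp hS h0 hH hf (t' + 1) (by omega)]
      have : ((-(t' : ℤ), 0) : ℤ × ℤ) - (-((t' + 1 : ℕ) : ℤ), 0) = (1, 0) := by
        apply Prod.ext
        · simp
        · simp
      rw [this]
      rfl
    rw [h3]
    apply Prod.ext
    · simp [dir]; omega
    · simp [dir]

theorem start5 (h0 : p 0 = (0, 0)) (h1 : p 1 = (1, 0)) {s : ℕ} (hs : s < 5) :
    PN p 5 s = ((s : ℤ), 0) := by
  have h := PN_lin5 (p := p) (i := 0) hs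
  rw [mul_zero, zero_add, Nat.cast_zero, h0] at h
  have h3 : pdir p 0 = 0 := by
    unfold pdir
    rw [Nat.cast_zero, zero_add, h0, h1]
    have : ((1, 0) : ℤ × ℤ) - (0, 0) = (1, 0) := by simp
    rw [this]
    rfl
  rw [h, h3]
  simp [dir]

/-- Rotation and translation of a polygon. -/
theorem poly_shift {N : ℕ} {q : ZMod N → ℤ × ℤ} (hq : IsPolygon q) (a : ZMod N) (c : ℤ × ℤ) :
    IsPolygon fun y => q (y + a) + c := by
  refine ⟨hq.1, fun y z h => ?_, fun y => ?_⟩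
  · exact add_right_cancel (hq.2.1 (add_right_cancel h))
  · obtain ⟨r, hr⟩ := hq.2.2 (y + a)
    refine ⟨r, ?_⟩
    show q (y + 1 + a) + c = q (y + a) + c + dir r
    rw [show y + 1 + a = y + a + 1 by ring, hr]
    abel

theorem face_add (v c : ℤ × ℤ) (r : Fin 4) : face (v + c) r = face v r + c := by
  unfold face
  abel

theorem mem_image_add {T : Finset (ℤ × ℤ)} {v c : ℤ × ℤ} :
    v ∈ T.image (· + c) ↔ v - c ∈ T := by
  rw [Finset.mem_image]
  constructor
  · rintro ⟨w, hw, rfl⟩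
    simpa using hw
  · exact fun h => ⟨_, h, by simp⟩

theorem encl_shift {N : ℕ} {q : ZMod N → ℤ × ℤ} {T : Finset (ℤ × ℤ)} (hq : Encloses q T)
    (a : ZMod N) (c : ℤ × ℤ) : Encloses (fun y => q (y + a) + c) (T.image (· + c)) := by
  intro v r
  rw [mem_image_add, mem_image_add]
  have e : ∀ s, face v s - c = face (v - c) s := fun s => by
    have h := face_add (v - c) c s
    rw [sub_add_cancel] at h
    rw [h, add_sub_cancel_right]
  rw [e, e, ← hq]
  constructor
  · rintro ⟨y, h1, h2⟩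
    refine ⟨y + a, ?_, ?_⟩
    · rw [← h1, add_sub_cancel_right]
    · rw [show y + a + 1 = y + 1 + a by ring]
      have h2' : q (y + 1 + a) + c = v + dir r := h2
      rw [← add_right_cancel_iff (a := c), h2']
      abel
  · rintro ⟨y, h1, h2⟩
    refine ⟨y - a, ?_, ?_⟩
    · simp only [sub_add_cancel]
      rw [h1, sub_add_cancel]
    · have : y - a + 1 + a = y + 1 := by ring
      simp only [this]
      rw [h2]
      abel

theorem abs_PN (t : ℕ) : |(PN p 5 t).1| ≤ 5 * |(p ((t / 5 : ℕ) : ZMod n)).1| + 5 ∧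
    |(PN p 5 t).2| ≤ 5 * |(p ((t / 5 : ℕ) : ZMod n)).2| + 5 := by
  unfold PN
  have h1 : ((t % 5 : ℕ) : ℤ) < 5 := by exact_mod_cast Nat.mod_lt t (by norm_num)
  have h2 : 0 ≤ ((t % 5 : ℕ) : ℤ) := by positivity
  generalize ((t % 5 : ℕ) : ℤ) = r at h1 h2
  obtain ⟨x, y⟩ := p ((t / 5 : ℕ) : ZMod n)
  generalize pdir p (t / 5) = d
  have a1 := neg_abs_le x
  have a2 := le_abs_self x
  have a3 := neg_abs_le y
  have a4 := le_abs_self y
  fin_cases d <;> refine ⟨?_, ?_⟩ <;> simp [dir] <;>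
    (rw [abs_le]; constructor <;> omega)

theorem floor5 {T : Finset (ℤ × ℤ)} {w : ℤ × ℤ} : w ∈ enl T 5 ↔ (w.1 / 5, w.2 / 5) ∈ T := by
  rw [Enl.mem_enl_div (by norm_num)]
  rfl

/-! ### translation of regions -/

theorem region_shift {T : Finset (ℤ × ℤ)} {a : ℤ} {z : ℂ} :
    z ∈ region 1 (T.image (· + ((a, 0) : ℤ × ℤ))) ↔ z - (a : ℂ) ∈ region 1 T := by
  constructor
  · rintro ⟨f, hf, h1, h2, h3, h4⟩
    rw [mem_image_add] at hf
    refine ⟨_, hf, ?_⟩
    simp only [one_mul, Prod.fst_sub, Prod.snd_sub, sub_zero, Complex.sub_re, Complex.sub_im,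
      Complex.intCast_re, Complex.intCast_im] at h1 h2 h3 h4 ⊢
    push_cast
    exact ⟨by linarith, by linarith, h3, h4⟩
  · rintro ⟨f, hf, h1, h2, h3, h4⟩
    refine ⟨f + (a, 0), by rw [mem_image_add, add_sub_cancel_right]; exact hf, ?_⟩
    simp only [one_mul, Prod.fst_add, Prod.snd_add, add_zero, Complex.sub_re, Complex.sub_im,
      Complex.intCast_re, Complex.intCast_im, sub_zero] at h1 h2 h3 h4 ⊢
    push_cast
    exact ⟨by linarith, by linarith, h3, h4⟩

theorem int_shift {T : Finset (ℤ × ℤ)} {a : ℤ} {z : ℂ} :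
    z ∈ interior (region 1 (T.image (· + ((a, 0) : ℤ × ℤ)))) ↔
      z - (a : ℂ) ∈ interior (region 1 T) := by
  have e : region 1 (T.image (· + ((a, 0) : ℤ × ℤ))) =
      (Homeomorph.addRight (-(a : ℂ))) ⁻¹' region 1 T := by
    ext w
    rw [region_shift, mem_preimage, sub_eq_add_neg]
    rfl
  rw [e, ← (Homeomorph.addRight (-(a : ℂ))).preimage_interior, mem_preimage, sub_eq_add_neg]
  rfl

theorem closure_shift {C : Set ℂ} {a : ℂ} {z : ℂ} :
    z ∈ closure ((fun w => w + a) ⁻¹' C) ↔ z + a ∈ closure C := by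
  have h := (Homeomorph.addRight a).preimage_closure C
  have h2 : (Homeomorph.addRight a) ⁻¹' closure C = (fun w => w + a) ⁻¹' closure C := rfl
  have h3 : (Homeomorph.addRight a) ⁻¹' C = (fun w => w + a) ⁻¹' C := rfl
  rw [h3] at h
  rw [← h]
  rfl

theorem pc_shift {C : Set ℂ} {a : ℂ} (h : IsPreconnected C) :
    IsPreconnected ((fun w => w + a) ⁻¹' C) := by
  have e : (fun w => w + a) ⁻¹' C = (fun w => w + -a) '' C := by
    ext w
    simp only [mem_preimage, mem_image]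
    constructor
    · exact fun h1 => ⟨_, h1, by ring⟩
    · rintro ⟨v, hv, rfl⟩
      simpa using hv
  rw [e]
  exact h.image _ (by fun_prop)

/-- The reach property is invariant under translations. -/
theorem reach_shift {T T' : Finset (ℤ × ℤ)} {mid mark : ℂ} {a : ℤ}
    (h : ∀ C : Set ℂ, C ⊆ interior (region 1 T) → IsPreconnected C → mid ∈ closure C →
      ∃ C', C ⊆ C' ∧ IsPreconnected C' ∧ C' ⊆ interior (region 1 T') ∧ C' ⊆ C ∪ ball mid 5 ∧
        mark ∈ closure C')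
    (C : Set ℂ) (hC : C ⊆ interior (region 1 (T.image (· + ((a, 0) : ℤ × ℤ)))))
    (hc : IsPreconnected C) (hm : mid + (a : ℂ) ∈ closure C) :
    ∃ C', C ⊆ C' ∧ IsPreconnected C' ∧
      C' ⊆ interior (region 1 (T'.image (· + ((a, 0) : ℤ × ℤ)))) ∧
      C' ⊆ C ∪ ball (mid + (a : ℂ)) 5 ∧ mark + (a : ℂ) ∈ closure C' := by
  obtain ⟨C', g1, g2, g3, g4, g5⟩ := h ((fun w => w + (a : ℂ)) ⁻¹' C)
    (fun z hz => by
      have h1 := hC hz
      rw [int_shift, add_sub_cancel_right] at h1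
      exact h1) (pc_shift hc) (closure_shift.2 hm)
  refine ⟨(fun w => w + -(a : ℂ)) ⁻¹' C', fun z hz => ?_, pc_shift g2, fun z hz => ?_,
    fun z hz => ?_, ?_⟩
  · apply g1
    show z + -(a : ℂ) + (a : ℂ) ∈ C
    rwa [neg_add_cancel_right]
  · rw [int_shift]
    have h1 : z + -(a : ℂ) ∈ interior (region 1 T') := g3 hz
    rwa [← sub_eq_add_neg] at h1
  · rcases g4 hz with h1 | h1
    · left
      have h2 : z + -(a : ℂ) + (a : ℂ) ∈ C := h1
      rwa [neg_add_cancel_right] at h2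
    · right
      rw [mem_ball, Complex.dist_eq] at h1 ⊢
      have : z - (mid + (a : ℂ)) = z + -(a : ℂ) - mid := by ring
      rw [this]
      exact h1
  · rw [closure_shift, add_neg_cancel_right]
    exact g5

end Vale.Agent.P167.H632G
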