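import Vale.Agent.P167.H632.G.Shp

/-!
# P167, general `q`, SAND-GEO [SHP-LAT]: the fields of the shape
-/

set_option autoImplicit false

namespace Vale.Agent.P167.H632G

open Metric Set
open Vale.Agent.P167.E6 (IsPolygon Encloses dir face pt region)
open Vale.Agent.P167.H825 (enl pdir dirOf)
open Vale.Agent.P167.Enl (PN qN face0 face1 face2 face3)

variable {n : ℕ} {p : ZMod n → ℤ × ℤ} {S : Finset (ℤ × ℤ)}

/-- The hypotheses on the coarse polygon. -/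
structure Co (p : ZMod n → ℤ × ℤ) (S : Finset (ℤ × ℤ)) (W H Kd Kc ρ i : ℕ) : Prop where
  poly : IsPolygon p
  encl : Encloses p S
  p0 : p 0 = (0, 0)
  p1 : p 1 = (1, 0)
  flat : ∀ v : ℤ × ℤ, -(W : ℤ) ≤ v.1 → v.1 < 1 → -(H : ℤ) ≤ v.2 → v.2 < H → (v ∈ S ↔ 0 ≤ v.2)
  hW : Kc + ρ + 5 ≤ 5 * W
  hH : ρ + 5 ≤ 5 * H
  hρ : 1 ≤ ρ
  hKc : Kd + ρ ≤ Kc
  hKd : ρ ≤ Kd
  i1 : 1 ≤ i
  i2 : i < n
  out : ¬ (-(W : ℤ) ≤ (face (p (i : ℕ)) (pdir p i - 1)).1 ∧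
      (face (p (i : ℕ)) (pdir p i - 1)).1 < 1 ∧ -(H : ℤ) ≤ (face (p (i : ℕ)) (pdir p i - 1)).2 ∧
      (face (p (i : ℕ)) (pdir p i - 1)).2 < H)

variable {W H Kd Kc ρ i x k : ℕ} {Bm : Finset (ℤ × ℤ)} {q : ZMod (5 * n + x) → ℤ × ℤ}

theorem Co.lt (h : Co p S W H Kd Kc ρ i) : i + W < n :=
  tip_lt h.poly h.encl h.p0 (by have := h.hH; omega) h.flat h.i2 h.out

theorem add_two (y : ℕ) : ((y : ZMod (5 * n + x)) + 2) = ((y + 2 : ℕ) : ZMod (5 * n + x)) := by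
  push_cast
  ring

theorem per {q : ZMod (5 * n + x) → ℤ × ℤ} (y : ℕ) : q ((5 * n + x + y : ℕ)) = q (y : ℕ) := by
  have : ((5 * n + x + y : ℕ) : ZMod (5 * n + x)) = ((y : ℕ) : ZMod (5 * n + x)) := by
    rw [Nat.cast_add (5 * n + x) y, ZMod.natCast_self, zero_add]
  rw [this]

theorem PN_per (y : ℕ) : PN p 5 (5 * n + y) = PN p 5 y := by
  have := Enl.PN_add_l (p := p) (n := 5) (by norm_num) y
  rw [mul_comm, add_comm]
  exact this

/-- The line. -/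
theorem Co.line (h : Co p S W H Kd Kc ρ i) (G : Gd p S i x k Bm q) (y : ℕ)
    (h1 : 5 * n + x - Kc ≤ y + ρ) (h2 : y ≤ 5 * n + x + 1) :
    q ((y : ZMod (5 * n + x)) + 2) + ((Kd : ℤ) - 2, 0) =
      ((y : ℤ) - ((5 * n + x - Kd : ℕ) : ℤ), 0) := by
  have a1 := h.lt
  have a2 := h.hW
  have a3 := h.hKc
  have a4 := h.hKd
  have a5 := h.hρ
  have a6 := h.i1
  have hH : 0 < H := by have := h.hH; omega
  rw [add_two, Nat.cast_sub (by omega : Kd ≤ 5 * n + x)]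
  by_cases h3 : y + 2 ≤ 5 * n + x
  · obtain ⟨y', hy'⟩ : ∃ y', y + 2 = y' + x := ⟨y + 2 - x, by omega⟩
    obtain ⟨s, hs⟩ : ∃ s, y' + s = 5 * n := ⟨5 * n - y', by omega⟩
    rw [hy', G.hi y' (by omega) (by omega), line5 h.poly h.encl h.p0 hH h.flat (by omega)
      (by omega : s ≤ 5 * W) hs]
    apply Prod.ext
    · simp only [Prod.fst_add]
      push_cast
      omega
    · simp
  · obtain ⟨s, hs⟩ : ∃ s, y + 2 = 5 * n + x + s := ⟨y + 2 - (5 * n + x), by omega⟩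
    rw [hs, per (q := q), G.lo s (by omega), start5 h.p0 h.p1 (by omega)]
    apply Prod.ext
    · simp only [Prod.fst_add]
      push_cast
      omega
    · simp

/-- The flat box. -/
theorem Co.flat5 (h : Co p S W H Kd Kc ρ i) (G : Gd p S i x k Bm q) (v : ℤ × ℤ)
    (h1 : ((5 * n + x - Kc : ℕ) : ℤ) - ((5 * n + x - Kd : ℕ) : ℤ) - ρ ≤ v.1) (h2 : v.1 < ρ)
    (h3 : -(ρ : ℤ) ≤ v.2) (h4 : v.2 < ρ) :
    v ∈ (enl S 5 ∪ Bm).image (· + (((Kd : ℤ) - 2, 0) : ℤ × ℤ)) ↔ 0 ≤ v.2 := by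
  have a1 := h.lt
  have a2 := h.hW
  have a3 := h.hKc
  have a4 := h.hKd
  have a5 := h.hρ
  have a6 := h.hH
  rw [Nat.cast_sub (by omega), Nat.cast_sub (by omega)] at h1
  rw [mem_image_add, Finset.mem_union]
  obtain ⟨w, hw⟩ : ∃ w : ℤ × ℤ, w = v - ((Kd : ℤ) - 2, 0) := ⟨_, rfl⟩
  have w1 : w.1 = v.1 - ((Kd : ℤ) - 2) := by rw [hw]; rfl
  have w2 : w.2 = v.2 := by rw [hw]; simp
  rw [← hw, floor5]
  have b1 : -(W : ℤ) ≤ w.1 / 5 := by omega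
  have b2 : w.1 / 5 < 1 := by omega
  have b3 : -(H : ℤ) ≤ w.2 / 5 := by omega
  have b4 : w.2 / 5 < H := by omega
  have key : w ∉ Bm := by
    intro hB
    have h5 := G.sub hB
    rw [floor5, Finset.mem_singleton] at h5
    apply h.out
    rw [← h5]
    exact ⟨b1, b2, b3, b4⟩
  rw [h.flat (w.1 / 5, w.2 / 5) b1 b2 b3 b4]
  constructor
  · rintro (h5 | h5)
    · simp only at h5
      omega
    · exact absurd h5 key
  · intro h5
    left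
    simp only
    omega

/-- The coordinates. -/
theorem Co.abs_le (h : Co p S W H Kd Kc ρ i) (G : Gd p S i x k Bm q) {B : ℕ}
    (hB : ∀ j, 5 * |(p j).1| + Kd + 10 ≤ (B : ℤ) ∧ 5 * |(p j).2| + 10 ≤ (B : ℤ)) (y : ZMod (5 * n + x)) :
    |(q (y + 2) + ((Kd : ℤ) - 2, 0)).1| ≤ (B : ℤ) ∧
      |(q (y + 2) + ((Kd : ℤ) - 2, 0)).2| ≤ (B : ℤ) := by
  have hn := h.poly.1
  have a4 := h.hKd
  have a5 := h.hρ
  have key : ∀ z : ZMod (5 * n + x), ∃ j, |(q z).1| ≤ 5 * |(p j).1| + 10 ∧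
      |(q z).2| ≤ 5 * |(p j).2| + 10 := by
    intro z
    obtain ⟨m, hm, rfl⟩ := zcast_val (by omega : 0 < 5 * n + x) z
    have hPN : ∀ t, ∃ j, |(PN p 5 t).1| ≤ 5 * |(p j).1| + 10 ∧
        |(PN p 5 t).2| ≤ 5 * |(p j).2| + 10 := fun t =>
      ⟨((t / 5 : ℕ) : ZMod n), by have := (abs_PN (p := p) t).1; omega,
        by have := (abs_PN (p := p) t).2; omega⟩
    by_cases h1 : m ≤ 5 * i + 2
    · rw [G.lo m h1]
      exact hPN m
    · by_cases h2 : m ≤ 5 * i + 3 + x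
      · refine ⟨(i : ℕ), ?_⟩
        obtain ⟨b1, b2, b3, b4⟩ := G.blk m (by omega) h2
        have f1 : (p (i : ℕ)).1 - 1 ≤ (face (p (i : ℕ)) (pdir p i - 1)).1 ∧
            (face (p (i : ℕ)) (pdir p i - 1)).1 ≤ (p (i : ℕ)).1 ∧
            (p (i : ℕ)).2 - 1 ≤ (face (p (i : ℕ)) (pdir p i - 1)).2 ∧
            (face (p (i : ℕ)) (pdir p i - 1)).2 ≤ (p (i : ℕ)).2 := by
          generalize pdir p i - 1 = d
          fin_cases d <;> simp [face]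
        have c1 := neg_abs_le (p (i : ℕ)).1
        have c2 := le_abs_self (p (i : ℕ)).1
        have c3 := neg_abs_le (p (i : ℕ)).2
        have c4 := le_abs_self (p (i : ℕ)).2
        rw [_root_.abs_le, _root_.abs_le]
        omega
      · obtain ⟨m', rfl⟩ : ∃ m', m = m' + x := ⟨m - x, by omega⟩
        rw [G.hi m' (by omega) (by omega)]
        exact hPN m'
  obtain ⟨j, h1, h2⟩ := key (y + 2)
  obtain ⟨h3, h4⟩ := hB j
  rw [_root_.abs_le] at h1 h2 ⊢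
  rw [_root_.abs_le]
  simp only [Prod.fst_add, Prod.snd_add, add_zero]
  omega

/-- The index bounds and the enumerations. -/
theorem lo5 (G : Gd p S i x k Bm q) (j : ℕ) (hj : j ≤ 5 * i) :
    q ((j : ZMod (5 * n + x)) + 2) = PN p 5 (j + 2) := by
  rw [add_two, G.lo _ (by omega)]

theorem Co.hi5 (h : Co p S W H Kd Kc ρ i) (G : Gd p S i x k Bm q) (j : ℕ) (h1 : 5 * i + 1 ≤ j)
    (h2 : j ≤ 5 * n) : q (((j + x : ℕ) : ZMod (5 * n + x)) + 2) = PN p 5 (j + 2) := by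
  rw [add_two]
  have a1 := h.i1
  by_cases h3 : j + 2 ≤ 5 * n
  · rw [show j + x + 2 = (j + 2) + x by ring, G.hi _ (by omega) h3]
  · obtain ⟨s, hs⟩ : ∃ s, j + 2 = 5 * n + s := ⟨j + 2 - 5 * n, by omega⟩
    rw [show j + x + 2 = 5 * n + x + s by omega, per (q := q), G.lo s (by omega), hs, PN_per]

theorem blk5 (G : Gd p S i x k Bm q) (j : ℕ) (h1 : 5 * i ≤ j)
    (h2 : j ≤ 5 * i + 1 + x) : 5 * (face (p (i : ℕ)) (pdir p i - 1)).1 ≤
      (q ((j : ZMod (5 * n + x)) + 2)).1 ∧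
    (q ((j : ZMod (5 * n + x)) + 2)).1 ≤ 5 * (face (p (i : ℕ)) (pdir p i - 1)).1 + 5 ∧
    5 * (face (p (i : ℕ)) (pdir p i - 1)).2 ≤ (q ((j : ZMod (5 * n + x)) + 2)).2 ∧
    (q ((j : ZMod (5 * n + x)) + 2)).2 ≤ 5 * (face (p (i : ℕ)) (pdir p i - 1)).2 + 5 := by
  rw [add_two]
  exact G.blk _ (by omega) (by omega)

/-- The midpoint of the tip side. -/
theorem mid_eq (hp : IsPolygon p) (i : ℕ) :
    (pt (PN p 5 (5 * i + 2)) + pt (PN p 5 (5 * i + 3))) / 2 =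
      (5 / 2 : ℝ) * (pt (p (i : ℕ)) + pt (p ((i : ZMod n) + 1))) := by
  rw [PN_lin5 (by norm_num), PN_lin5 (by norm_num), Enl.pdir_step hp]
  generalize p ((i : ℕ) : ZMod n) = v
  generalize pdir p i = d
  obtain ⟨a, b⟩ := v
  fin_cases d <;> apply Complex.ext <;> simp [pt, dir] <;> ring

end Vale.Agent.P167.H632G
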