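import Vale.Agent.P167.H632.G.Shp2
import Vale.Agent.P167.H450.ShpL

/-!
# P167, general `q`, SAND-GEO: 450's `S_gadget` and `S_shape`
-/

set_option autoImplicit false

namespace Vale.Agent.P167.H632G

open Metric Set
open Vale.Agent.P167.E6 (IsPolygon Encloses dir face pt region)
open Vale.Agent.P167.H825 (enl pdir)
open Vale.Agent.P167.Enl (PN)
open Vale.Agent.P167.QT (Sh4)
open Vale.Agent.P167.H450.ShpL (Gf md Reach S_gadget S_shape)

/-- **[OutN]** The gadget, 450's form. -/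
theorem s_gadget : S_gadget := by
  intro n p S hp hS i hi
  obtain ⟨x, k, B, q, G⟩ := gadget hp hS i hi
  refine ⟨x, k, B, q, G.poly, G.encl, G.sub, G.tip, G.k_ge, G.k_lt, G.lo, G.hi, G.blk, ?_⟩
  intro C h1 h2 h3
  have e : md p i = (pt (PN p 5 (5 * i + 2)) + pt (PN p 5 (5 * i + 3))) / 2 := (mid_eq hp i).symm
  rw [e] at h3 ⊢
  exact G.reach C h1 h2 h3

/-- **[SHP-LAT]** The shape, 450's form. -/
theorem s_shape : S_shape := by
  intro n p S W H Kd Kc ρ B i hp hS h0 h1 hf a1 a2 a3 a4 a5 hB a6 a7 hG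
  have h : Co p S W H Kd Kc ρ i := ⟨hp, hS, h0, h1, hf, a1, a2, a3, a4, a5, a6, a7, hG⟩
  have hlt := h.lt
  obtain ⟨x, k, Bm, q, G⟩ := gadget hp hS i a7
  have k1 := G.k_ge
  have k2 := G.k_lt
  have hk : ((k - 2 : ℕ) : ZMod (5 * n + x)) + 2 = ((k : ℕ) : ZMod (5 * n + x)) := by
    rw [add_two, show k - 2 + 2 = k by omega]
  refine ⟨⟨5 * n + x, fun y => q (y + 2) + ((Kd : ℤ) - 2, 0),
    (enl S 5 ∪ Bm).image (· + (((Kd : ℤ) - 2, 0) : ℤ × ℤ)), k - 2, 5 * n + x - Kc,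
    5 * n + x - Kd⟩, Bm, x, ?_, rfl, ?_, ?_, ?_, rfl, G.sub, ?_, ?_, ?_, ?_, ?_, ?_⟩
  · exact
      { poly := poly_shift G.poly 2 _
        encl := encl_shift G.encl 2 _
        k_pos := by show 0 < k - 2; omega
        k_lt := by show k - 2 + ρ + 1 ≤ 5 * n + x - Kc; omega
        j_lt := by show 5 * n + x - Kc + ρ ≤ 5 * n + x - Kd; omega
        l_lt := by show 5 * n + x - Kd + ρ ≤ 5 * n + x; omega
        line := fun y h2 h3 => h.line G y h2 h3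
        tip := by
          show q (((k - 2 : ℕ) : ZMod (5 * n + x)) + 1 + 2) + _ =
            q (((k - 2 : ℕ) : ZMod (5 * n + x)) + 2) + _ + _
          have e : ((k - 2 : ℕ) : ZMod (5 * n + x)) + 1 + 2 = ((k + 1 : ℕ) : ZMod (5 * n + x)) := by
            rw [add_right_comm, hk]
            push_cast
            rfl
          rw [e, hk, G.tip]
          abel
        flat := fun v g1 g2 g3 g4 => h.flat5 G v g1 g2 g3 g4 }
  · show 5 * n + x - Kd + Kd = 5 * n + x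
    omega
  · show 5 * n + x - Kc + Kc = 5 * n + x
    omega
  · exact fun y => h.abs_le G hB y
  · show 5 * i ≤ k - 2
    omega
  · show k - 2 ≤ 5 * i + x
    omega
  · intro j hj
    show q ((j : ZMod (5 * n + x)) + 2) + _ = _
    rw [lo5 G j hj]
  · intro j h2 h3
    show q (((j + x : ℕ) : ZMod (5 * n + x)) + 2) + _ = _
    rw [h.hi5 G j h2 h3]
  · intro j h2 h3
    obtain ⟨g1, g2, g3, g4⟩ := blk5 G j h2 h3
    show 5 * (Gf p i).1 + ((Kd : ℤ) - 2) ≤ (q ((j : ZMod (5 * n + x)) + 2)).1 + ((Kd : ℤ) - 2) ∧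
      (q ((j : ZMod (5 * n + x)) + 2)).1 + ((Kd : ℤ) - 2) ≤ _ ∧
      5 * (Gf p i).2 ≤ (q ((j : ZMod (5 * n + x)) + 2)).2 + 0 ∧
      (q ((j : ZMod (5 * n + x)) + 2)).2 + 0 ≤ 5 * (Gf p i).2 + 5
    unfold Gf
    exact ⟨by linarith, by linarith, by linarith, by linarith⟩
  · intro C c1 c2 c3
    have e : md p i = (pt (PN p 5 (5 * i + 2)) + pt (PN p 5 (5 * i + 3))) / 2 := (mid_eq hp i).symm
    have e2 : (((Kd : ℝ) - 2 : ℝ) : ℂ) = (((Kd : ℤ) - 2 : ℤ) : ℂ) := by push_cast; rfl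
    have e3 : pt (q (((k - 2 : ℕ) : ZMod (5 * n + x)) + 2) + ((Kd : ℤ) - 2, 0)) + 1 / 2 =
        pt (q (k : ℕ)) + 1 / 2 + (((Kd : ℤ) - 2 : ℤ) : ℂ) := by
      rw [hk]
      apply Complex.ext
      · simp [pt]; ring
      · simp [pt]
    show ∃ C' : Set ℂ, C ⊆ C' ∧ IsPreconnected C' ∧ C' ⊆ _ ∧ C' ⊆ _ ∧
      pt (q (((k - 2 : ℕ) : ZMod (5 * n + x)) + 2) + ((Kd : ℤ) - 2, 0)) + 1 / 2 ∈ closure C'
    rw [e3]
    rw [e, e2] at c3 ⊢
    exact reach_shift G.reach C c1 c2 c3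

end Vale.Agent.P167.H632G
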